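import Vale.Agent.P319.SC.Iface

/-! P319, block SC: package MAIN. -/

namespace Vale.Agent.P319.SC

open Finset

/-- one chain of points: `W ^ t ≤ |X| W ^ (w - j)`. -/
theorem main_chain (hG : GroStmt) (V ι : Type) [Fintype V] [DecidableEq V] [DecidableEq ι]
    (W w β : ℕ) (hW : W ≤ 2 * w + 2) (hW1 : 1 ≤ W) (hβ : W ^ (w + 1) ≤ 2 ^ β) :
    ∀ (t m : ℕ) (𝒞 : Cfg V ι m), t + 3 * β + 5 ≤ m → ∀ (ρ : ι) (j : ℕ), j ≤ w →
      2 ≤ (𝒞.cls ρ).card → 2 * j + 3 ≤ (𝒞.rels ρ ρ).card →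
      W ^ t ≤ (𝒞.cls ρ).card * W ^ (w - j) := by
  intro t
  induction t with
  | zero =>
    intro m 𝒞 _ ρ j _ h2 _
    rw [pow_zero]
    exact Nat.mul_pos (by omega) (Nat.pow_pos hW1)
  | succ t ih =>
    intro m 𝒞 hm ρ j hj h2 hr
    obtain ⟨m', rfl⟩ : ∃ m', m = m' + 6 := ⟨m - 6, by omega⟩
    obtain ⟨v, σ, hv, hs2, hs3, hmul, hor⟩ := hG V ι m' 𝒞 ρ h2
    have hle : ((𝒞.fix v).cls σ).card ≤ (𝒞.cls ρ).card := by
      refine le_trans ?_ hmul
      exact Nat.le_mul_of_pos_left _ (by omega)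
    rcases hor with hor | hor
    · have ih0 := ih (m' + 5) (𝒞.fix v) (by omega) σ 0 (by omega) hs2 (by omega)
      have h3 : (2 ^ β * ((𝒞.fix v).cls σ).card) ^ 3 ≤ (𝒞.cls ρ).card ^ 3 := by
        refine le_trans ?_ hor
        rw [mul_pow, ← pow_mul]
        exact Nat.mul_le_mul_right _ (Nat.pow_le_pow_right (by norm_num) (by omega))
      have h4 : 2 ^ β * ((𝒞.fix v).cls σ).card ≤ (𝒞.cls ρ).card :=
        (Nat.pow_le_pow_iff_left (by norm_num)).1 h3
      calc W ^ (t + 1) = W ^ t * W := pow_succ _ _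
        _ ≤ (((𝒞.fix v).cls σ).card * W ^ (w - 0)) * W := Nat.mul_le_mul_right _ ih0
        _ = ((𝒞.fix v).cls σ).card * W ^ (w + 1) := by rw [Nat.sub_zero, mul_assoc, ← pow_succ]
        _ ≤ ((𝒞.fix v).cls σ).card * 2 ^ β := Nat.mul_le_mul_left _ hβ
        _ = 2 ^ β * ((𝒞.fix v).cls σ).card := mul_comm _ _
        _ ≤ (𝒞.cls ρ).card := h4
        _ ≤ (𝒞.cls ρ).card * W ^ (w - j) := Nat.le_mul_of_pos_right _ (Nat.pow_pos hW1)
    · rcases Nat.lt_or_ge j w with hjw | hjw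
      · have ih1 := ih (m' + 5) (𝒞.fix v) (by omega) σ (j + 1) (by omega) hs2 (by omega)
        calc W ^ (t + 1) = W ^ t * W := pow_succ _ _
          _ ≤ (((𝒞.fix v).cls σ).card * W ^ (w - (j + 1))) * W := Nat.mul_le_mul_right _ ih1
          _ = ((𝒞.fix v).cls σ).card * W ^ (w - j) := by
            rw [mul_assoc, ← pow_succ]; congr 2; omega
          _ ≤ (𝒞.cls ρ).card * W ^ (w - j) := Nat.mul_le_mul_right _ hle
      · have hjw' : j = w := by omega
        subst hjw'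
        have ih2 := ih (m' + 5) (𝒞.fix v) (by omega) σ j le_rfl hs2 (by omega)
        rw [Nat.sub_self, pow_zero, mul_one] at ih2 ⊢
        calc W ^ (t + 1) = W * W ^ t := by rw [pow_succ, mul_comm]
          _ ≤ W * ((𝒞.fix v).cls σ).card := Nat.mul_le_mul_left _ ih2
          _ ≤ ((𝒞.rels ρ ρ).card - 1) * ((𝒞.fix v).cls σ).card :=
            Nat.mul_le_mul_right _ (by omega)
          _ ≤ (𝒞.cls ρ).card := hmul

/-- **block MAIN** -/
theorem main_of_gro (hG : GroStmt) : MainStmt := by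
  refine ⟨2048, ?_⟩
  intro V ι _ _ _ m 𝒞 hn hom
  have hlogn : 1 ≤ Nat.log 2 (Fintype.card V) := Nat.log_pos (by norm_num) hn
  rcases Nat.lt_or_ge m 256 with hm | hm
  · -- small `m`
    have h1 : Nat.log 2 m ≤ 7 := by
      have : Nat.log 2 m < 8 := Nat.log_lt_of_lt_pow' (by norm_num) (by simpa using hm)
      omega
    calc m * Nat.log 2 m ≤ 255 * 7 := Nat.mul_le_mul (by omega) h1
      _ ≤ 2048 * 1 := by norm_num
      _ ≤ 2048 * Nat.log 2 (Fintype.card V) := Nat.mul_le_mul_left _ hlogn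
  · set l := Nat.log 2 m with hl
    have hl8 : 8 ≤ l := by
      rw [hl]
      exact (Nat.le_log_iff_pow_le (by norm_num) (by omega)).2 (by simpa using hm)
    have hml : 2 ^ l ≤ m := Nat.pow_log_le_self 2 (by omega)
    set s := l / 4 with hs
    have hs2 : 2 ≤ s := by omega
    have hls : l ≤ 7 * s := by omega
    set q := 2 ^ s with hq
    have hsq : s < q := Nat.lt_two_pow_self
    have hq4 : q ^ 4 ≤ m := by
      refine le_trans ?_ hml
      rw [hq, ← pow_mul]
      exact Nat.pow_le_pow_right (by norm_num) (by omega)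
    have hq4' : 4 ≤ q := by
      calc 4 = 2 ^ 2 := by norm_num
        _ ≤ 2 ^ s := Nat.pow_le_pow_right (by norm_num) hs2
    -- the parameters
    set β := s * (q + 1) with hβ
    have hpar : 2 * (3 * β + q + 6) ≤ m := by
      refine le_trans ?_ hq4
      have e1 : β ≤ q * (q + 1) := Nat.mul_le_mul_right _ hsq.le
      nlinarith [e1, Nat.mul_le_mul hq4' hq4', Nat.mul_le_mul (Nat.mul_le_mul hq4' hq4') (le_refl (q * q))]
    obtain ⟨T, hT⟩ : ∃ T, m = T + 3 * β + 6 := ⟨m - (3 * β + 6), by omega⟩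
    -- the first step
    obtain ⟨m', hm'⟩ : ∃ m', m = m' + 6 := ⟨m - 6, by omega⟩
    have key : q ^ T ≤ Fintype.card V * q ^ q := by
      clear_value l s q β
      subst hm'
      obtain ⟨x0⟩ : Nonempty V := Fintype.card_pos_iff.1 (by omega)
      have hcls : 𝒞.cls (𝒞.c1 x0) = univ := by
        ext a
        simp [Cfg.cls, hom a x0]
      have h2 : 2 ≤ (𝒞.cls (𝒞.c1 x0)).card := by rw [hcls, card_univ]; exact hn
      obtain ⟨v, σ, hv, hs2', hs3, -, -⟩ := hG V ι m' 𝒞 (𝒞.c1 x0) h2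
      have hch := main_chain hG V ι q q β (by omega) (by omega)
        (by rw [hβ, hq, ← pow_mul]) T (m' + 5) (𝒞.fix v) (by omega) σ 0 (by omega) hs2' (by omega)
      refine le_trans hch ?_
      rw [Nat.sub_zero]
      exact Nat.mul_le_mul_right _ (card_le_univ _)
    have hTq : q ≤ T := by omega
    have key2 : q ^ (T - q) ≤ Fintype.card V := by
      have h5 : q ^ (T - q) * q ^ q ≤ Fintype.card V * q ^ q := by
        rw [← pow_add, Nat.sub_add_cancel hTq]; exact key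
      exact Nat.le_of_mul_le_mul_right h5 (Nat.pow_pos (by omega))
    have key3 : s * (T - q) ≤ Nat.log 2 (Fintype.card V) := by
      rw [Nat.le_log_iff_pow_le (by norm_num) (by omega), pow_mul]
      exact key2
    have h6 : m ≤ 2 * (T - q) := by omega
    calc m * l ≤ (2 * (T - q)) * (7 * s) := Nat.mul_le_mul h6 hls
      _ = 14 * (s * (T - q)) := by ring
      _ ≤ 14 * Nat.log 2 (Fintype.card V) := Nat.mul_le_mul_left _ key3
      _ ≤ 2048 * Nat.log 2 (Fintype.card V) := Nat.mul_le_mul_right _ (by norm_num)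

end Vale.Agent.P319.SC
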