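import Vale.Agent.P319.SC.H323.Block

/-! P319, block SC: the block lemma. -/

namespace Vale.Agent.P319.SC.H323

open Finset Vale.Agent.P319.SC

set_option linter.all false

variable {V ι : Type} [Fintype V] [DecidableEq V] [DecidableEq ι] {m : ℕ}

/-- the mixing property in the form used in the recursion -/
theorem mix_of (𝒞 : Cfg V ι m) (hm : 3 ≤ m) {D L : ℕ} (hD : BigRank 𝒞 D) {ρ : ι} {v₀ z₀ : V}
    (hv₀ : 𝒞.c1 v₀ = ρ) (hz₀ : 𝒞.c1 z₀ = ρ)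
    (hL : 2 * (𝒞.cls ρ).card ≤ L * 𝒞.val v₀ (𝒞.c2 v₀ z₀)) (P : Finset V) (hP : P ⊆ 𝒞.cls ρ) :
    ((𝒞.cls ρ).filter fun v => L * (P.filter fun z => 𝒞.c2 v z = 𝒞.c2 v₀ z₀).card <
      P.card).card * P.card * D ≤ 2 * (𝒞.cls ρ).card ^ 2 * L := by
  set n := (𝒞.cls ρ).card with hn
  set T := 𝒞.c2 v₀ z₀ with hT
  set k := 𝒞.val v₀ T with hk
  have hn0 : 0 < n := by rw [hn, ← hv₀]; exact 𝒞.cls_pos v₀
  have hk0 : 0 < k := 𝒞.val_pos v₀ z₀
  have hTm : T ∈ 𝒞.rels ρ ρ := (𝒞.mem_rels _ _ _).2 ⟨v₀, z₀, hv₀, hz₀, rfl⟩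
  have h1 := bad_count 𝒞 hm hD hv₀ hTm hP
  rw [← hn, ← hk] at h1
  set S := (𝒞.cls ρ).filter fun v => L * (P.filter fun z => 𝒞.c2 v z = T).card < P.card with hS
  have h2 : S.card ≤ ((𝒞.cls ρ).filter fun v => 2 * n * (P.filter fun z => 𝒞.c2 v z = T).card <
      k * P.card).card := by
    refine card_le_card fun v hv => ?_
    rw [hS, mem_filter] at hv
    refine mem_filter.2 ⟨hv.1, ?_⟩
    calc 2 * n * (P.filter fun z => 𝒞.c2 v z = T).card
        ≤ L * k * (P.filter fun z => 𝒞.c2 v z = T).card := Nat.mul_le_mul_right _ hL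
      _ = k * (L * (P.filter fun z => 𝒞.c2 v z = T).card) := by ring
      _ < k * P.card := Nat.mul_lt_mul_of_pos_left hv.2 hk0
  have h3 : S.card * (k * P.card * D) ≤ 4 * n ^ 3 := (Nat.mul_le_mul_right _ h2).trans h1
  refine Nat.le_of_mul_le_mul_left ?_ (show 0 < 2 * n by omega)
  calc 2 * n * (S.card * P.card * D) ≤ L * k * (S.card * P.card * D) :=
        Nat.mul_le_mul_right _ hL
    _ = L * (S.card * (k * P.card * D)) := by ring
    _ ≤ L * (4 * n ^ 3) := Nat.mul_le_mul_left _ h3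
    _ = 2 * n * (2 * n ^ 2 * L) := by ring

/-- the number of `v` with `c3 v x y` a given colour depends only on the colour of `(x, y)` -/
theorem card_over (𝒞 : Cfg V ι m) (hm : 3 ≤ m) (i : ι) {x y x' y' : V}
    (h : 𝒞.c2 x y = 𝒞.c2 x' y') : (univ.filter fun v => 𝒞.c3 v x y = i).card =
      (univ.filter fun v => 𝒞.c3 v x' y' = i).card := by
  obtain ⟨e, he⟩ := 𝒞.ext2 hm h
  refine Finset.card_bij (fun z _ => e z) ?_ (fun a _ b _ h => e.injective h) ?_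
  · intro z hz
    have h1 := 𝒞.c3_rot hm (𝒞.c3_rot hm (he z))
    simp only [mem_filter, mem_univ, true_and] at hz ⊢
    rw [← h1]; exact hz
  · intro z hz
    refine ⟨e.symm z, ?_, e.apply_symm_apply z⟩
    have h1 := 𝒞.c3_rot hm (𝒞.c3_rot hm (he (e.symm z)))
    rw [e.apply_symm_apply] at h1
    simp only [mem_filter, mem_univ, true_and] at hz ⊢
    rw [h1]; exact hz

/-- double counting of triples -/
theorem card_triples (𝒞 : Cfg V ι m) (hm : 3 ≤ m) {v₁ x₁ y₁ : V} :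
    (univ.filter fun t : V × V × V => 𝒞.c3 t.1 t.2.1 t.2.2 = 𝒞.c3 v₁ x₁ y₁).card =
      (univ.filter fun q : V × V => 𝒞.c2 q.1 q.2 = 𝒞.c2 x₁ y₁).card *
        (univ.filter fun v => 𝒞.c3 v x₁ y₁ = 𝒞.c3 v₁ x₁ y₁).card := by
  set i := 𝒞.c3 v₁ x₁ y₁ with hi
  have h1 : (univ.filter fun t : V × V × V => 𝒞.c3 t.1 t.2.1 t.2.2 = i).card =
      ∑ q ∈ univ.filter (fun q : V × V => 𝒞.c2 q.1 q.2 = 𝒞.c2 x₁ y₁),
        (univ.filter fun v => 𝒞.c3 v q.1 q.2 = i).card := by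
    rw [Finset.card_eq_sum_card_fiberwise (f := fun t : V × V × V => t.2)
      (t := univ.filter fun q : V × V => 𝒞.c2 q.1 q.2 = 𝒞.c2 x₁ y₁)]
    · refine Finset.sum_congr rfl fun q _ => ?_
      refine Finset.card_bij (fun t _ => t.1) ?_ ?_ ?_
      · intro t ht
        simp only [mem_filter, mem_univ, true_and] at ht ⊢
        rw [← ht.2]; exact ht.1
      · intro t ht t' ht' h
        simp only [mem_filter, mem_univ, true_and] at ht ht'
        exact Prod.ext h (ht.2.trans ht'.2.symm)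
      · intro v hv
        simp only [mem_filter, mem_univ, true_and] at hv
        exact ⟨(v, q), by simpa using hv, rfl⟩
    · intro t ht
      simp only [coe_filter, mem_univ, true_and, Set.mem_setOf_eq] at ht ⊢
      exact (𝒞.c3_sub hm ht).2.2
  rw [h1, ← smul_eq_mul, ← Finset.sum_const]
  refine Finset.sum_congr rfl fun q hq => ?_
  exact card_over 𝒞 hm i (mem_filter.1 hq).2

theorem card_rot (𝒞 : Cfg V ι m) (hm : 3 ≤ m) {v₁ x₁ y₁ : V} :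
    (univ.filter fun t : V × V × V => 𝒞.c3 t.1 t.2.1 t.2.2 = 𝒞.c3 x₁ y₁ v₁).card =
      (univ.filter fun t : V × V × V => 𝒞.c3 t.1 t.2.1 t.2.2 = 𝒞.c3 v₁ x₁ y₁).card := by
  refine Finset.card_bij (fun t _ => (t.2.2, t.1, t.2.1)) ?_ ?_ ?_
  · intro t ht
    simp only [mem_filter, mem_univ, true_and] at ht ⊢
    exact 𝒞.c3_rot hm (𝒞.c3_rot hm ht)
  · intro t _ t' _ h
    simp only [Prod.mk.injEq] at h
    exact Prod.ext h.2.1 (Prod.ext h.2.2 h.1)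
  · intro t ht
    simp only [mem_filter, mem_univ, true_and] at ht
    refine ⟨(t.2.1, t.2.2, t.1), ?_, rfl⟩
    simp only [mem_filter, mem_univ, true_and]
    exact 𝒞.c3_rot hm ht

theorem block : BlockStmt := by
  intro V ι _ _ _ M J 𝒞 ρ D L Q hM hJ hD h2 hL hRB hQ hDb
  have hm : 3 ≤ M + J := by omega
  have hm2 : 2 ≤ M + J := by omega
  set X := 𝒞.cls ρ with hX
  set n := X.card with hn
  obtain ⟨v₀, hv₀, w₀, hw₀, hvw⟩ := Finset.one_lt_card.1 h2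
  rw [hX, 𝒞.mem_cls] at hv₀ hw₀
  have hmemX : ∀ a, a ∈ X ↔ 𝒞.c1 a = ρ := fun a => 𝒞.mem_cls ρ a
  set R := 𝒞.c2 v₀ w₀ with hR
  -- first and last points of pairs of colour `R`
  have hRc : ∀ a b, 𝒞.c2 a b = R → 𝒞.c1 a = ρ ∧ 𝒞.c1 b = ρ := fun a b h =>
    ⟨(𝒞.c1_of_c2 hm2 h).1.trans hv₀, (𝒞.c1_of_c2 hm2 h).2.trans hw₀⟩
  have hRne : ∀ a b, 𝒞.c2 a b = R → a ≠ b := fun a b h hab =>
    hvw ((𝒞.eq_of_c2 hm2 h).1 hab)
  have hr3 : 3 ≤ (𝒞.rels ρ ρ).card := by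
    have := 𝒞.rank_ge_three hm2 v₀ (by rw [hv₀]; exact h2)
    rwa [hv₀] at this
  have hQ3 : 3 ≤ Q := by
    have := hRB.zero v₀ ((hmemX _).2 hv₀)
    rw [hv₀] at this
    omega
  -- positivity
  have hn0 : 0 < n := by omega
  have hL0 : 0 < L := by
    have := hL v₀ w₀ hv₀ hw₀ hvw
    rcases Nat.eq_zero_or_pos L with h | h
    · subst h; simp at this; omega
    · exact h
  -- the colours
  set 𝒯 := (𝒞.rels ρ ρ).erase (𝒞.c2 v₀ v₀) with h𝒯
  have hdm : 𝒞.c2 v₀ v₀ ∈ 𝒞.rels ρ ρ := (𝒞.mem_rels _ _ _).2 ⟨v₀, v₀, hv₀, hv₀, rfl⟩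
  have h𝒯c : 𝒯.card + 1 = (𝒞.rels ρ ρ).card := Finset.card_erase_add_one hdm
  -- mixing
  have hmix : ∀ T ∈ 𝒯, ∀ P ⊆ X, (X.filter fun v => L * (P.filter fun z => 𝒞.c2 v z = T).card <
      P.card).card * P.card * D ≤ 2 * n ^ 2 * L := by
    intro T hT P hP
    have hT1 := mem_of_mem_erase hT
    rw [← hv₀] at hT1
    obtain ⟨z, hz, rfl⟩ := 𝒞.exists_of_mem_rels hm2 v₀ hT1
    rw [hv₀] at hz
    refine mix_of 𝒞 hm hD hv₀ hz (hL v₀ z hv₀ hz ?_) P hP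
    rintro rfl
    exact (ne_of_mem_erase hT) rfl
  have hRT : R ∈ 𝒯 := mem_erase.2 ⟨fun h => hvw ((𝒞.eq_of_c2 hm2 h).2 rfl),
    (𝒞.mem_rels _ _ _).2 ⟨v₀, w₀, hv₀, hw₀, rfl⟩⟩
  -- powers
  have hpw : 6 * L ^ 3 ≤ 6 * J * L ^ (2 * J + 5) * Q ^ 2 := by
    calc 6 * L ^ 3 ≤ 6 * J * L ^ (2 * J + 5) :=
          Nat.mul_le_mul (by omega) (Nat.pow_le_pow_right hL0 (by omega))
      _ ≤ 6 * J * L ^ (2 * J + 5) * Q ^ 2 := Nat.le_mul_of_pos_right _ (by positivity)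
  -- a pair `x₁, y₁` of colour `R`; `y₁` good for `R^t (x₁)`
  set k := 𝒞.val v₀ R with hk
  have hkL : 2 * n ≤ L * k := hL v₀ w₀ hv₀ hw₀ hvw
  set Q' := univ.filter fun v => 𝒞.c2 v v₀ = R with hQ'
  have hQ'X : Q' ⊆ X := fun v hv => (hmemX v).2 (hRc _ _ (mem_filter.1 hv).2).1
  have hQ'c : Q'.card = k := by
    have h1 : Q' = univ.filter fun v => 𝒞.c2 v₀ v = 𝒞.c2 w₀ v₀ := by
      ext v
      simp only [hQ', mem_filter, mem_univ, true_and, hR]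
      exact 𝒞.c2_swap_iff hm2
    rw [h1]
    have h2 := 𝒞.val_flip hm2 (v := v₀) (z := w₀) (hv₀.trans hw₀.symm)
    exact h2
  obtain ⟨y₁, hy₁, hy₁b⟩ : ∃ y, 𝒞.c2 v₀ y = R ∧
      Q'.card ≤ L * (Q'.filter fun v => 𝒞.c2 y v = R).card := by
    by_contra hcon
    push Not at hcon
    have h1 : (univ.filter fun y => 𝒞.c2 v₀ y = R) ⊆
        X.filter fun v => L * (Q'.filter fun z => 𝒞.c2 v z = R).card < Q'.card := by
      intro y hy
      have hy' := (mem_filter.1 hy).2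
      exact mem_filter.2 ⟨(hmemX y).2 (hRc _ _ hy').2, hcon y hy'⟩
    have h3 := card_le_card h1
    have h4 := hmix R hRT Q' hQ'X
    rw [hQ'c] at h4
    have h5 : k * k * D ≤ 2 * n ^ 2 * L :=
      (Nat.mul_le_mul_right _ (Nat.mul_le_mul_right _ (by rw [hQ'c] at h3; exact h3))).trans h4
    have h6 : (2 * n) * (2 * n) * D ≤ (2 * n ^ 2) * L ^ 3 := by
      calc (2 * n) * (2 * n) * D ≤ (L * k) * (L * k) * D :=
            Nat.mul_le_mul_right _ (Nat.mul_le_mul hkL hkL)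
        _ = L ^ 2 * (k * k * D) := by ring
        _ ≤ L ^ 2 * (2 * n ^ 2 * L) := Nat.mul_le_mul_left _ h5
        _ = (2 * n ^ 2) * L ^ 3 := by ring
    have h7 : (2 * n ^ 2) * (2 * D) ≤ (2 * n ^ 2) * L ^ 3 := by
      calc (2 * n ^ 2) * (2 * D) = (2 * n) * (2 * n) * D := by ring
        _ ≤ _ := h6
    have h8 := Nat.le_of_mul_le_mul_left h7 (by positivity)
    have h9 : 0 < L ^ 3 := by positivity
    omega
  rw [hQ'c] at hy₁b
  set S := Q'.filter fun v => 𝒞.c2 y₁ v = R with hS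
  have hSm : ∀ v, v ∈ S ↔ 𝒞.c2 v v₀ = R ∧ 𝒞.c2 y₁ v = R := by
    intro v
    simp only [hS, hQ', mem_filter, mem_univ, true_and]
  have hSc : 2 * n ≤ L ^ 2 * S.card := by
    calc 2 * n ≤ L * k := hkL
      _ ≤ L * (L * S.card) := Nat.mul_le_mul_left _ hy₁b
      _ = L ^ 2 * S.card := by ring
  -- the colours of the triples `(v, v₀, y₁)`, `v ∈ S`
  have hRB1 : ∀ x ∈ X, ∀ a ∈ X, ∀ b ∈ X, ∀ col : Finset ι,
      (∀ i ∈ col, ∃ u w, 𝒞.c2 x u = 𝒞.c2 x a ∧ 𝒞.c2 x w = 𝒞.c2 x b ∧ 𝒞.c3 x u w = i) →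
      col.card ≤ Q := by
    obtain ⟨J', rfl⟩ : ∃ J', J = J' + 1 := ⟨J - 1, by omega⟩
    intro x hx a ha b hb col hcol
    have h1 := (hRB.2 x hx).rels (by omega) ha hb
    refine (card_le_card fun i hi => ?_).trans h1
    obtain ⟨u, w, hu, hw, hi'⟩ := hcol i hi
    have fc1 : ∀ c, (𝒞.fix x).c1 c = 𝒞.c2 x c := fun c =>
      Cfg.fix_c1 (m := M + J') 𝒞 (by omega) x c
    refine ((𝒞.fix x).mem_rels _ _ _).2 ⟨u, w, ?_, ?_, ?_⟩
    · rw [fc1, fc1]; exact hu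
    · rw [fc1, fc1]; exact hw
    · rw [← hi']; exact Cfg.fix_c2 (m := M + J') 𝒞 (by omega) x u w
  have himg : (S.image fun v => 𝒞.c3 v v₀ y₁).card ≤ Q := by
    have hSne : 0 < S.card := by
      rcases Nat.eq_zero_or_pos S.card with h | h
      · rw [h] at hSc; omega
      · exact h
    obtain ⟨s₀, hs₀⟩ := card_pos.1 hSne
    have hs₀' := (hSm s₀).1 hs₀
    refine hRB1 s₀ ((hmemX _).2 (hRc _ _ hs₀'.1).1) v₀ ((hmemX _).2 hv₀) y₁
      ((hmemX _).2 (hRc _ _ hs₀'.2).1) _ ?_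
    intro i hi
    obtain ⟨s, hs, rfl⟩ := mem_image.1 hi
    have hs' := (hSm s).1 hs
    obtain ⟨e1, he1⟩ := 𝒞.ext1 hm2 ((hRc _ _ hs'.1).1.trans (hRc _ _ hs₀'.1).1.symm)
    obtain ⟨e2, he2⟩ := 𝒞.ext2 hm (he1 v₀)
    have h3 := 𝒞.c3_sub hm (he2 y₁)
    refine ⟨e1 v₀, e2 y₁, ?_, ?_, (he2 y₁).symm⟩
    · rw [← he1 v₀, hs'.1, hs₀'.1]
    · rw [← h3.2.1]
      exact 𝒞.c2_swap hm2 (hs'.2.trans hs₀'.2.symm)
  obtain ⟨E₀, hE₀, hE₀c⟩ : ∃ i ∈ S.image (fun v => 𝒞.c3 v v₀ y₁),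
      (S.card - 1) / Q < (S.filter fun v => 𝒞.c3 v v₀ y₁ = i).card := by
    refine Finset.exists_lt_card_fiber_of_mul_lt_card_of_maps_to
      (fun v hv => mem_image_of_mem _ hv) ?_
    have hSne : 0 < S.card := by
      rcases Nat.eq_zero_or_pos S.card with h | h
      · rw [h] at hSc; omega
      · exact h
    calc (S.image fun v => 𝒞.c3 v v₀ y₁).card * ((S.card - 1) / Q) ≤ Q * ((S.card - 1) / Q) :=
          Nat.mul_le_mul_right _ himg
      _ ≤ S.card - 1 := Nat.mul_div_le _ _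
      _ < S.card := by omega
  obtain ⟨v₁, hv₁, hv₁E⟩ := mem_image.1 hE₀
  have hv₁' := (hSm v₁).1 hv₁
  set N₀ := (univ.filter fun v => 𝒞.c3 v v₀ y₁ = E₀).card with hN₀
  have hN₀1 : S.card ≤ Q * N₀ := by
    have h1 : (S.filter fun v => 𝒞.c3 v v₀ y₁ = E₀).card ≤ N₀ :=
      card_le_card (filter_subset_filter _ (subset_univ _))
    have h3 := Nat.lt_mul_div_succ (S.card - 1) (show 0 < Q by omega)
    have h4 : Q * ((S.card - 1) / Q + 1) ≤ Q * N₀ := Nat.mul_le_mul_left _ (by omega)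
    omega
  -- the three colours
  set E : Fin 3 → ι := ![𝒞.c3 v₁ v₀ y₁, 𝒞.c3 v₀ y₁ v₁, 𝒞.c3 y₁ v₁ v₀] with hEdef
  have hvv : v₁ ≠ v₀ := hRne _ _ hv₁'.1
  have hyv : y₁ ≠ v₁ := hRne _ _ hv₁'.2
  have hvy : v₀ ≠ y₁ := hRne _ _ hy₁
  have d01 : 𝒞.c3 v₀ y₁ v₁ ≠ 𝒞.c3 v₁ v₀ y₁ := 𝒞.c3_rot_ne hm hvv hyv.symm hvy
  have d12 : 𝒞.c3 y₁ v₁ v₀ ≠ 𝒞.c3 v₀ y₁ v₁ := 𝒞.c3_rot_ne hm hvy hvv.symm hyv
  have d20 : 𝒞.c3 v₁ v₀ y₁ ≠ 𝒞.c3 y₁ v₁ v₀ := 𝒞.c3_rot_ne hm hyv hvy.symm hvv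
  have cE : ∀ ε, N₀ = (univ.filter fun v => 𝒞.c3 v v₀ y₁ = E ε).card := by
    -- the number of triples is `#R * #P`
    have pR : ∀ a b, 𝒞.c2 a b = R →
        (univ.filter fun q : V × V => 𝒞.c2 q.1 q.2 = 𝒞.c2 a b).card =
          (univ.filter fun q : V × V => 𝒞.c2 q.1 q.2 = R).card := fun a b h => by rw [h]
    have pos : 0 < (univ.filter fun q : V × V => 𝒞.c2 q.1 q.2 = R).card :=
      card_pos.2 ⟨(v₀, y₁), by simpa using hy₁⟩
    have t0 := card_triples 𝒞 hm (v₁ := v₁) (x₁ := v₀) (y₁ := y₁)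
    have t1 := card_triples 𝒞 hm (v₁ := v₀) (x₁ := y₁) (y₁ := v₁)
    have t2 := card_triples 𝒞 hm (v₁ := y₁) (x₁ := v₁) (y₁ := v₀)
    rw [pR _ _ hy₁] at t0
    rw [pR _ _ hv₁'.2] at t1
    rw [pR _ _ hv₁'.1] at t2
    rw [card_over 𝒞 hm _ (hv₁'.2.trans hy₁.symm)] at t1
    rw [card_over 𝒞 hm _ (hv₁'.1.trans hy₁.symm)] at t2
    have r1 := card_rot 𝒞 hm (v₁ := v₁) (x₁ := v₀) (y₁ := y₁)
    have r2 := card_rot 𝒞 hm (v₁ := v₀) (x₁ := y₁) (y₁ := v₁)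
    intro ε
    rw [hN₀, ← hv₁E]
    fin_cases ε
    · rfl
    · refine Nat.eq_of_mul_eq_mul_left pos ?_
      show _ = _ * (univ.filter fun v => 𝒞.c3 v v₀ y₁ = 𝒞.c3 v₀ y₁ v₁).card
      rw [← t0, ← t1, r1]
    · refine Nat.eq_of_mul_eq_mul_left pos ?_
      show _ = _ * (univ.filter fun v => 𝒞.c3 v v₀ y₁ = 𝒞.c3 y₁ v₁ v₀).card
      rw [← t0, ← t2, r2, r1]
  -- the ground data
  have G : Ground X 𝒞.c2 𝒞.c3 R E 𝒯 L (2 * n ^ 2 * L) D := by
    refine ⟨?_, ?_, hL0, hmix⟩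
    · intro ε v x y h
      fin_cases ε
      · have h1 := 𝒞.c3_sub hm (show 𝒞.c3 v x y = 𝒞.c3 v₁ v₀ y₁ from h)
        exact ⟨h1.1.trans hv₁'.1, (𝒞.c2_swap hm2 h1.2.1).trans hv₁'.2⟩
      · have h1 := 𝒞.c3_sub hm (show 𝒞.c3 v x y = 𝒞.c3 v₀ y₁ v₁ from h)
        exact ⟨h1.1.trans hy₁, (𝒞.c2_swap hm2 h1.2.1).trans hv₁'.1⟩
      · have h1 := 𝒞.c3_sub hm (show 𝒞.c3 v x y = 𝒞.c3 y₁ v₁ v₀ from h)
        exact ⟨h1.1.trans hv₁'.2, (𝒞.c2_swap hm2 h1.2.1).trans hy₁⟩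
    · intro ε ε' h
      fin_cases ε <;> fin_cases ε' <;> first | rfl | exfalso
      · exact d01 h.symm
      · exact d20 h
      · exact d01 h
      · exact d12 h.symm
      · exact d20 h.symm
      · exact d12 h
  -- `D ≤ 4 n L`
  have hDn : D ≤ 4 * n * L := by
    have h1 := hmix R hRT {v₀} (by
      intro z hz
      rw [mem_singleton] at hz
      rw [hz, hmemX]; exact hv₀)
    rw [card_singleton, mul_one] at h1
    have h3 : (univ.filter fun v => 𝒞.c2 v₀ v = R) ⊆ X.filter fun v =>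
        L * (({v₀} : Finset V).filter fun z => 𝒞.c2 v z = R).card < 1 := by
      intro v hv
      have hv' := (mem_filter.1 hv).2
      refine mem_filter.2 ⟨(hmemX v).2 (hRc _ _ hv').2, ?_⟩
      have : (({v₀} : Finset V).filter fun z => 𝒞.c2 v z = R) = ∅ := by
        refine Finset.filter_eq_empty_iff.2 fun z hz h => ?_
        rw [mem_singleton] at hz
        subst hz
        exact 𝒞.c2_ne_swap hm2 (hRne _ _ hv') (h.trans hv'.symm)
      rw [this]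
      simp
    have h4 : k * D ≤ 2 * n ^ 2 * L := (Nat.mul_le_mul_right _ (card_le_card h3)).trans h1
    -- the points without `R`-arrow to `v₀`
    have h5 : X.card ≤ Q'.card + (X.filter fun v =>
        L * (({v₀} : Finset V).filter fun z => 𝒞.c2 v z = R).card < 1).card := by
      refine le_trans (card_le_card ?_) (card_union_le _ _)
      intro v hv
      rw [mem_union]
      by_cases h : 𝒞.c2 v v₀ = R
      · left; simpa [hQ'] using h
      · right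
        refine mem_filter.2 ⟨hv, ?_⟩
        have : (({v₀} : Finset V).filter fun z => 𝒞.c2 v z = R) = ∅ := by
          refine Finset.filter_eq_empty_iff.2 fun z hz h' => ?_
          rw [mem_singleton] at hz
          subst hz
          exact h h'
        rw [this]
        simp
    rw [hQ'c, ← hn] at h5
    have h6 : n * D ≤ k * D + 2 * n ^ 2 * L := by
      refine (Nat.mul_le_mul_right D h5).trans ?_
      rw [add_mul]
      exact Nat.add_le_add_left h1 _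
    refine Nat.le_of_mul_le_mul_left ?_ hn0
    calc n * D ≤ k * D + 2 * n ^ 2 * L := h6
      _ ≤ 2 * n ^ 2 * L + 2 * n ^ 2 * L := Nat.add_le_add_right h4 _
      _ = n * (4 * n * L) := by ring
  -- the density
  set N₁ := N₀ / L ^ J with hN₁
  have hLJ : 0 < L ^ J := Nat.pow_pos hL0
  have hN₁a : L ^ J * N₁ ≤ N₀ := Nat.mul_div_le _ _
  have hN₁b : N₀ < L ^ J * (N₁ + 1) := Nat.lt_mul_div_succ _ hLJ
  have hnN : 2 * n < L ^ (J + 2) * Q * (N₁ + 1) := by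
    calc 2 * n ≤ L ^ 2 * S.card := hSc
      _ ≤ L ^ 2 * (Q * N₀) := Nat.mul_le_mul_left _ hN₀1
      _ < L ^ 2 * (Q * (L ^ J * (N₁ + 1))) := by
          refine Nat.mul_lt_mul_of_pos_left ?_ (by positivity)
          exact Nat.mul_lt_mul_of_pos_left hN₁b (by omega)
      _ = L ^ (J + 2) * Q * (N₁ + 1) := by ring
  have hN₁pos : 0 < N₁ := by
    rcases Nat.eq_zero_or_pos N₁ with h0 | h0
    · exfalso
      rw [h0, zero_add, mul_one] at hnN
      have h1 : D < 2 * L ^ (J + 3) * Q := by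
        calc D ≤ 4 * n * L := hDn
          _ = (2 * n) * (2 * L) := by ring
          _ < (L ^ (J + 2) * Q) * (2 * L) := Nat.mul_lt_mul_of_pos_right hnN (by omega)
          _ = 2 * L ^ (J + 3) * Q := by ring
      have h3 : 2 * L ^ (J + 3) * Q ≤ 6 * J * L ^ (2 * J + 5) * Q ^ 2 := by
        refine Nat.mul_le_mul (Nat.mul_le_mul (by omega) (Nat.pow_le_pow_right hL0 (by omega))) ?_
        rw [pow_two]
        exact Nat.le_mul_of_pos_left _ (by omega)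
      omega
    · exact h0
  have hnN' : n < L ^ (J + 2) * Q * N₁ := by
    have h1 : L ^ (J + 2) * Q * (N₁ + 1) ≤ L ^ (J + 2) * Q * (2 * N₁) :=
      Nat.mul_le_mul_left _ (by omega)
    have h3 : L ^ (J + 2) * Q * (2 * N₁) = 2 * (L ^ (J + 2) * Q * N₁) := by ring
    omega
  have hmain : 3 * J * (2 * n ^ 2 * L) < N₁ * N₁ * D := by
    have h1 : n ^ 2 < (L ^ (J + 2) * Q * N₁) ^ 2 := Nat.pow_lt_pow_left hnN' (by norm_num)
    calc 3 * J * (2 * n ^ 2 * L) = (6 * J * L) * n ^ 2 := by ring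
      _ < (6 * J * L) * (L ^ (J + 2) * Q * N₁) ^ 2 := by
          refine Nat.mul_lt_mul_of_pos_left h1 ?_
          have : 0 < J := hJ
          positivity
      _ = N₁ * N₁ * (6 * J * L ^ (2 * J + 5) * Q ^ 2) := by ring
      _ ≤ N₁ * N₁ * D := Nat.mul_le_mul_left _ hDb
  have hmain' : 2 * n ^ 2 * L < N₁ * N₁ * D := by
    refine lt_of_le_of_lt ?_ hmain
    exact Nat.le_mul_of_pos_left _ (by omega)
  have key := block_rec G (Q := Q) (M := M) (J := J) (N₁ := N₁) (by omega) (by omega) hmain hmain'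
    J le_rfl 𝒞 (fun _ _ _ _ h => h) (fun _ _ _ _ _ _ h => h) hRB (fun _ => ρ) ρ ρ {R}
    (fun _ _ a h => (hmemX a).2 h) (fun a h => (hmemX a).2 h) (fun a h => (hmemX a).2 h)
    (fun _ _ v x v' x' _ _ _ _ h h' => h.trans h'.symm)
    (fun _ _ v x v' x' _ _ _ _ h h' => h.trans h'.symm)
    (by
      intro t ht
      rw [mem_singleton] at ht
      subst ht
      refine ⟨v₀, y₁, hv₀, (hRc _ _ hy₁).2, hy₁, ?_⟩
      intro i hi ε
      refine (hN₁a.trans (le_of_eq (cE ε))).trans (le_of_eq ?_)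
      congr 1
      ext v
      simp only [mem_filter, mem_univ, true_and]
      constructor
      · intro h
        exact ⟨(hRc _ _ (G.hE _ _ _ _ h).1).1, h⟩
      · exact fun h => h.2)
  rwa [card_singleton, mul_one] at key

end Vale.Agent.P319.SC.H323
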