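import Vale.Agent.P319.SC.H323.Lab
import Vale.Agent.P319.SC.H323.Start

/-! P319, block SC: iteration of the tripling lemma. -/

namespace Vale.Agent.P319.SC.H323

open Finset Vale.Agent.P319.SC

set_option linter.all false

/-- pigeonhole -/
theorem pigeon {α ι : Type*} [DecidableEq ι] (S : Finset α) (hS : S.Nonempty) (F : α → ι)
    (Col : Finset ι) {Q : ℕ} (hQ : Col.card ≤ Q) (hF : ∀ z ∈ S, F z ∈ Col) :
    ∃ z ∈ S, S.card ≤ Q * (S.filter fun w => F w = F z).card := by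
  by_contra hcon
  push Not at hcon
  have h1 : S.card = ∑ c ∈ Col, (S.filter fun w => F w = c).card :=
    Finset.card_eq_sum_card_fiberwise (fun z hz => hF z hz)
  have h2 : ∀ c ∈ Col, Q * (S.filter fun w => F w = c).card < S.card := by
    intro c hc
    rcases (S.filter fun w => F w = c).eq_empty_or_nonempty with h | ⟨z, hz⟩
    · rw [h, card_empty, mul_zero]
      exact card_pos.2 hS
    · rw [mem_filter] at hz
      have := hcon z hz.1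
      rwa [hz.2] at this
  obtain ⟨z₀, hz₀⟩ := hS
  have h3 : ∑ c ∈ Col, Q * (S.filter fun w => F w = c).card < ∑ c ∈ Col, S.card :=
    Finset.sum_lt_sum_of_nonempty ⟨_, hF z₀ hz₀⟩ h2
  rw [← Finset.mul_sum, ← h1, Finset.sum_const, smul_eq_mul] at h3
  have h4 : Col.card * S.card ≤ Q * S.card := Nat.mul_le_mul_right _ hQ
  omega

variable {V ι : Type} [Fintype V] [DecidableEq V] [DecidableEq ι] {m : ℕ}

/-- the ground data of the iteration -/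
structure TGround (𝒞 : Cfg V ι (m + 2)) (R T : ι) (lab : ι → ZMod 3) (ρ₀ : ι) (D L L₀ M : ℕ) :
    Prop where
  hm : 4 ≤ m
  hMm : M ≤ m
  big : ∀ k, M ≤ k → ∀ 𝒟 : Cfg V ι k, BigRank 𝒟 D
  hR : R ∈ 𝒞.rels ρ₀ ρ₀
  hT : T ∈ 𝒞.rels ρ₀ ρ₀
  hlab : IsLab 𝒞 R lab
  uR : UnspR 𝒞 R T
  uL : UnspL 𝒞 R T
  vR : ∀ v, 𝒞.c1 v = ρ₀ → 2 * (𝒞.cls ρ₀).card ≤ L₀ * 𝒞.val v R
  vT : ∀ v, 𝒞.c1 v = ρ₀ → (𝒞.cls ρ₀).card ≤ L₀ * 𝒞.val v T
  hD : 2 ^ 24 * L ^ 32 < D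

variable {𝒞 : Cfg V ι (m + 2)} {R T : ι} {lab : ι → ZMod 3} {ρ₀ : ι} {D L L₀ M : ℕ}

/-- a point `v` in `P` which sees `R` and the transposed colour in big sets -/
theorem TGround.exists_pt (G : TGround 𝒞 R T lab ρ₀ D L L₀ M) {P P' : Finset V}
    (hP : P ⊆ 𝒞.cls ρ₀) (hP' : P' ⊆ 𝒞.cls ρ₀) {A : ℕ} (hn0 : 0 < (𝒞.cls ρ₀).card)
    (hA : (𝒞.cls ρ₀).card ≤ A * P.card)
    (hA' : (𝒞.cls ρ₀).card ≤ A * P'.card) (hAD : 4 * A ^ 2 * L₀ < D) :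
    ∃ v ∈ P, P.card ≤ L₀ * (P.filter fun z => 𝒞.c2 v z = R).card ∧
      P'.card ≤ L₀ * (P'.filter fun z => 𝒞.c2 z v = R).card := by
  have hm := G.hm
  obtain ⟨a, b, ha, hb, hR⟩ := (𝒞.mem_rels _ _ _).1 G.hR
  have h1 := mix_of 𝒞 (by omega) (G.big _ (by have := G.hMm; omega) 𝒞) ha hb
    (by rw [hR]; exact G.vR a ha) P hP
  have h2 := mix_of 𝒞 (by omega) (G.big _ (by have := G.hMm; omega) 𝒞) hb ha
    (by
      have e : 𝒞.val b (𝒞.c2 b a) = 𝒞.val a R := by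
        rw [← hR, 𝒞.val_eq (by omega) (hb.trans ha.symm), 𝒞.val_flip (by omega) (ha.trans hb.symm)]
      rw [e]; exact G.vR a ha) P' hP'
  rw [hR] at h1
  have e2 : ∀ v z, 𝒞.c2 v z = 𝒞.c2 b a ↔ 𝒞.c2 z v = R := by
    intro v z
    rw [𝒞.c2_swap_iff (by omega), hR]
  simp only [e2] at h2
  set n := (𝒞.cls ρ₀).card with hn
  set B1 := (𝒞.cls ρ₀).filter fun v => L₀ * (P.filter fun z => 𝒞.c2 v z = R).card < P.card
    with hB1
  set B2 := (𝒞.cls ρ₀).filter fun v => L₀ * (P'.filter fun z => 𝒞.c2 z v = R).card < P'.card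
    with hB2
  by_contra hcon
  push Not at hcon
  have h3 : P ⊆ B1 ∪ B2 := by
    intro v hv
    rw [mem_union, hB1, hB2, mem_filter, mem_filter]
    by_cases h : P.card ≤ L₀ * (P.filter fun z => 𝒞.c2 v z = R).card
    · exact Or.inr ⟨hP hv, hcon v hv h⟩
    · exact Or.inl ⟨hP hv, not_le.1 h⟩
  have h4 : P.card ≤ B1.card + B2.card := (card_le_card h3).trans (card_union_le _ _)
  have h5 : n * n * D ≤ 4 * A ^ 2 * L₀ * (n * n) := by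
    calc n * n * D ≤ (A * P.card) * n * D := by
          exact Nat.mul_le_mul_right _ (Nat.mul_le_mul_right _ hA)
      _ ≤ (A * (B1.card + B2.card)) * n * D :=
          Nat.mul_le_mul_right _ (Nat.mul_le_mul_right _ (Nat.mul_le_mul_left _ h4))
      _ = A * (B1.card * n * D + B2.card * n * D) := by ring
      _ ≤ A * (B1.card * (A * P.card) * D + B2.card * (A * P'.card) * D) := by
          refine Nat.mul_le_mul_left _ (Nat.add_le_add ?_ ?_)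
          · exact Nat.mul_le_mul_right _ (Nat.mul_le_mul_left _ hA)
          · exact Nat.mul_le_mul_right _ (Nat.mul_le_mul_left _ hA')
      _ = A ^ 2 * (B1.card * P.card * D + B2.card * P'.card * D) := by ring
      _ ≤ A ^ 2 * (2 * n ^ 2 * L₀ + 2 * n ^ 2 * L₀) :=
          Nat.mul_le_mul_left _ (Nat.add_le_add h1 h2)
      _ = 4 * A ^ 2 * L₀ * (n * n) := by ring
  have h6 : 4 * A ^ 2 * L₀ * (n * n) < n * n * D := by
    rw [mul_comm (n * n) D]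
    exact Nat.mul_lt_mul_of_pos_right hAD (Nat.mul_pos hn0 hn0)
  omega

theorem tri_rec (hTri : TripleStmt) (G : TGround 𝒞 R T lab ρ₀ D L L₀ M) (hM : 5 ≤ M) {Q : ℕ}
    (hQ : 1 ≤ Q) (hL₀ : 1 ≤ L₀) :
    ∀ (j : ℕ) (𝒟 : Cfg V ι (M + j)),
      (∀ a b a' b', 𝒟.c2 a b = 𝒟.c2 a' b' → 𝒞.c2 a b = 𝒞.c2 a' b') →
      (∀ a b c a' b' c', 𝒟.c3 a b c = 𝒟.c3 a' b' c' → 𝒞.c3 a b c = 𝒞.c3 a' b' c') →
      RB (𝒞.cls ρ₀) Q M j 𝒟 → ∀ x y : V, x ∈ 𝒞.cls ρ₀ → y ∈ 𝒞.cls ρ₀ →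
      ∀ (𝒜 : Finset ι) (A B : ℕ), 1 ≤ A → 1 ≤ B →
      (𝒞.cls ρ₀).card ≤ A * (𝒟.cls (𝒟.c1 x)).card → (𝒞.cls ρ₀).card ≤ A * (𝒟.cls (𝒟.c1 y)).card →
      (∀ τ ∈ 𝒜, ∃ x₂ y₂, 𝒟.c1 x₂ = 𝒟.c1 x ∧ 𝒟.c1 y₂ = 𝒟.c1 y ∧ 𝒟.c2 x₂ y₂ = τ ∧ 𝒞.c2 x₂ y₂ = R ∧
        (𝒟.cls (𝒟.c1 y)).card ≤ B * 𝒟.val x₂ τ) →
      A * B * (8 * L₀ * Q ^ 2) ^ j * L₀ ≤ L → 3 ^ j * 𝒜.card ≤ Q := by
  intro j
  induction j with
  | zero =>
    intro 𝒟 hr2 hr3 hRB x y hx hy 𝒜 A B hA1 hB1 hAx hAy hτ hL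
    rw [pow_zero, one_mul]
    refine le_trans (card_le_card fun τ h => ?_) (hRB.rels (by omega) hx hy)
    obtain ⟨x₂, y₂, h1, h2, h3, h4, h5⟩ := hτ τ h
    exact (𝒟.mem_rels _ _ _).2 ⟨x₂, y₂, h1, h2, h3⟩
  | succ j ih =>
    intro 𝒟 hr2 hr3 hRB x y hx hy 𝒜 A B hA1 hB1 hAx hAy hτ hL
    classical
    have hX : ∀ a b, 𝒟.c1 a = 𝒟.c1 b → a ∈ 𝒞.cls ρ₀ → b ∈ 𝒞.cls ρ₀ := by
      intro a b hab ha
      rw [𝒞.mem_cls] at ha ⊢
      have := hr2 _ _ _ _ (𝒟.c2_diag (by omega) hab)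
      rw [← (𝒞.c1_of_c2 (by have := G.hm; omega) this).1, ha]
    set n := (𝒞.cls ρ₀).card with hn
    have hn0 : 0 < n := card_pos.2 ⟨x, hx⟩
    set Λ := 8 * L₀ * Q ^ 2 with hΛ
    have hQ2 : 1 ≤ Q ^ 2 := Nat.one_le_pow _ _ hQ
    have hQQ : Q ≤ Q ^ 2 := Nat.le_self_pow (by norm_num) _
    have hΛ1 : 1 ≤ Λ := by
      rw [hΛ]
      exact Nat.mul_pos (by omega) (by omega)
    have hΛj : 1 ≤ Λ ^ j := Nat.one_le_pow _ _ hΛ1
    have hLb : A * B * Λ * L₀ ≤ L := by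
      refine le_trans (Nat.mul_le_mul_right _ (Nat.mul_le_mul_left _ ?_)) hL
      exact Nat.le_self_pow (by omega) _
    have hL0Q : L₀ * Q ≤ Λ := by
      rw [hΛ]
      calc L₀ * Q ≤ L₀ * Q ^ 2 := Nat.mul_le_mul_left _ hQQ
        _ ≤ 8 * (L₀ * Q ^ 2) := Nat.le_mul_of_pos_left _ (by norm_num)
        _ = 8 * L₀ * Q ^ 2 := by ring
    have hAL : A * (L₀ * Q) ≤ L := by
      calc A * (L₀ * Q) ≤ A * Λ := Nat.mul_le_mul_left _ hL0Q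
        _ = A * 1 * Λ * 1 := by ring
        _ ≤ A * B * Λ * L₀ :=
          Nat.mul_le_mul (Nat.mul_le_mul_right _ (Nat.mul_le_mul_left _ hB1)) hL₀
        _ ≤ L := hLb
    have hAL' : A ≤ L := le_trans (Nat.le_mul_of_pos_right _ (Nat.mul_pos hL₀ hQ)) hAL
    have hABL : A * B ≤ L := by
      calc A * B = A * B * 1 * 1 := by ring
        _ ≤ A * B * Λ * L₀ := Nat.mul_le_mul (Nat.mul_le_mul_left _ hΛ1) hL₀
        _ ≤ L := hLb
    have hL₀L : L₀ ≤ L := by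
      calc L₀ = 1 * 1 * 1 * L₀ := by ring
        _ ≤ A * B * Λ * L₀ := Nat.mul_le_mul_right _
            (Nat.mul_le_mul (Nat.mul_le_mul hA1 hB1) hΛ1)
        _ ≤ L := hLb
    have hL1 : 1 ≤ L := hL₀.trans hL₀L
    -- the point `v`
    obtain ⟨v, hv, hv1, hv2⟩ := G.exists_pt (P := 𝒟.cls (𝒟.c1 x)) (P' := 𝒟.cls (𝒟.c1 y))
      (fun a ha => hX x a ((𝒟.mem_cls _ _).1 ha).symm hx)
      (fun a ha => hX y a ((𝒟.mem_cls _ _).1 ha).symm hy) hn0 hAx hAy (by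
        refine lt_of_le_of_lt ?_ G.hD
        calc 4 * A ^ 2 * L₀ ≤ 2 ^ 24 * L ^ 2 * L :=
              Nat.mul_le_mul (Nat.mul_le_mul (by norm_num) (Nat.pow_le_pow_left hAL' 2)) hL₀L
          _ = 2 ^ 24 * L ^ 3 := by ring
          _ ≤ 2 ^ 24 * L ^ 32 := Nat.mul_le_mul_left _ (Nat.pow_le_pow_right hL1 (by norm_num)))
    have hvx : 𝒟.c1 v = 𝒟.c1 x := (𝒟.mem_cls _ _).1 hv
    have hvX : v ∈ 𝒞.cls ρ₀ := hX x v hvx.symm hx
    set P := (𝒟.cls (𝒟.c1 x)).filter fun z => 𝒞.c2 v z = R with hP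
    set P' := (𝒟.cls (𝒟.c1 y)).filter fun z => 𝒞.c2 z v = R with hP'
    have hPne : P.Nonempty := by
      rw [← card_pos]
      rcases Nat.eq_zero_or_pos P.card with h | h
      · rw [h, mul_zero] at hv1
        have := 𝒟.cls_pos x
        omega
      · exact h
    have hPne' : P'.Nonempty := by
      rw [← card_pos]
      rcases Nat.eq_zero_or_pos P'.card with h | h
      · rw [h, mul_zero] at hv2
        have := 𝒟.cls_pos y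
        omega
      · exact h
    obtain ⟨x₁, hx₁, hx₁c⟩ := pigeon P hPne (fun z => 𝒟.c2 v z) (𝒟.rels (𝒟.c1 x) (𝒟.c1 x))
      (hRB.rels (by omega) hx hx) (fun z hz => (𝒟.mem_rels _ _ _).2 ⟨v, z, hvx,
        (𝒟.mem_cls _ _).1 (mem_filter.1 hz).1, rfl⟩)
    obtain ⟨y₁, hy₁, hy₁c⟩ := pigeon P' hPne' (fun z => 𝒟.c2 v z) (𝒟.rels (𝒟.c1 x) (𝒟.c1 y))
      (hRB.rels (by omega) hx hy) (fun z hz => (𝒟.mem_rels _ _ _).2 ⟨v, z, hvx,
        (𝒟.mem_cls _ _).1 (mem_filter.1 hz).1, rfl⟩)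
    rw [mem_filter, 𝒟.mem_cls] at hx₁ hy₁
    have hx₁X : x₁ ∈ 𝒞.cls ρ₀ := hX x x₁ hx₁.1.symm hx
    have hy₁X : y₁ ∈ 𝒞.cls ρ₀ := hX y y₁ hy₁.1.symm hy
    have kx : (𝒟.cls (𝒟.c1 x)).card ≤ L₀ * Q * 𝒟.val v (𝒟.c2 v x₁) := by
      refine hv1.trans ?_
      rw [mul_assoc]
      refine Nat.mul_le_mul_left _ (hx₁c.trans (Nat.mul_le_mul_left _ ?_))
      refine card_le_card fun z hz => ?_
      exact mem_filter.2 ⟨mem_univ _, (mem_filter.1 hz).2⟩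
    have ky : (𝒟.cls (𝒟.c1 y)).card ≤ L₀ * Q * 𝒟.val v (𝒟.c2 v y₁) := by
      refine hv2.trans ?_
      rw [mul_assoc]
      refine Nat.mul_le_mul_left _ (hy₁c.trans (Nat.mul_le_mul_left _ ?_))
      refine card_le_card fun z hz => ?_
      exact mem_filter.2 ⟨mem_univ _, (mem_filter.1 hz).2⟩
    have nx : n ≤ A * (L₀ * Q) * 𝒟.val v (𝒟.c2 v x₁) :=
      hAx.trans (by rw [mul_assoc]; exact Nat.mul_le_mul_left _ kx)
    have ny : n ≤ A * (L₀ * Q) * 𝒟.val v (𝒟.c2 v y₁) :=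
      hAy.trans (by rw [mul_assoc]; exact Nat.mul_le_mul_left _ ky)
    have fc1 : ∀ a, (𝒟.fix v).c1 a = 𝒟.c2 v a := fun a =>
      Cfg.fix_c1 (m := M + j) 𝒟 (by omega) v a
    have fc2 : ∀ a b, (𝒟.fix v).c2 a b = 𝒟.c3 v a b := fun a b =>
      Cfg.fix_c2 (m := M + j) 𝒟 (by omega) v a b
    have fc3 : ∀ a b c, (𝒟.fix v).c3 a b c = 𝒟.c4 v a b c := fun a b c =>
      Cfg.fix_c3 (m := M + j) 𝒟 (by omega) v a b c
    have fcls : ∀ a, ((𝒟.fix v).cls ((𝒟.fix v).c1 a)).card = 𝒟.val v (𝒟.c2 v a) := by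
      intro a
      rw [fc1]
      exact (Cfg.val_eq_fix (m := M + j) 𝒟 (by omega) v _).symm
    -- the new colours
    have key : ∀ τ ∈ 𝒜, ∀ ε : ZMod 3, ∃ a b, 𝒟.c2 v a = 𝒟.c2 v x₁ ∧ 𝒟.c2 v b = 𝒟.c2 v y₁ ∧
        𝒟.c2 a b = τ ∧ 𝒞.c2 a b = R ∧ lab (𝒞.c3 v a b) = ε ∧
        𝒟.val v (𝒟.c2 v y₁) ≤ 8 * B * Q * (𝒟.fix v).val a ((𝒟.fix v).c2 a b) := by
      intro τ hτA ε
      obtain ⟨x₂, y₂, hx₂, hy₂, hτe, hτR, hτB⟩ := hτ τ hτA
      have hn2 : n ≤ L * 𝒟.val x₂ (𝒟.c2 x₂ y₂) := by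
        rw [hτe]
        calc n ≤ A * (𝒟.cls (𝒟.c1 y)).card := hAy
          _ ≤ A * (B * 𝒟.val x₂ τ) := Nat.mul_le_mul_left _ hτB
          _ = A * B * 𝒟.val x₂ τ := by ring
          _ ≤ L * 𝒟.val x₂ τ := Nat.mul_le_mul_right _ hABL
      have h1 := hTri V ι m (M + (j + 1)) 𝒞 𝒟 ρ₀ R T lab D L G.hm (by omega)
        (G.big _ (by have := G.hMm; omega) 𝒞) (fun a b => G.big m G.hMm _)
        (G.big _ (by omega) 𝒟) hr2 hr3 G.hR G.hT G.hlab G.uR G.uL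
        (fun a ha => by
          have := G.vR a ha
          have := Nat.mul_le_mul_right (𝒞.val a R) hL₀L
          omega)
        (fun a ha => (G.vT a ha).trans (Nat.mul_le_mul_right _ hL₀L))
        v x₁ y₁ x₂ y₂ ((𝒞.mem_cls _ _).1 hvX) hx₁.2 hy₁.2 hτR (hx₂.trans hx₁.1.symm)
        (hy₂.trans hy₁.1.symm)
        (by rw [hvx]; exact hAx.trans (Nat.mul_le_mul_right _ hAL'))
        (nx.trans (Nat.mul_le_mul_right _ hAL)) (ny.trans (Nat.mul_le_mul_right _ hAL)) hn2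
        G.hD ε
      set S := univ.filter fun q : V × V => 𝒟.c2 v q.1 = 𝒟.c2 v x₁ ∧
        𝒟.c2 v q.2 = 𝒟.c2 v y₁ ∧ 𝒟.c2 q.1 q.2 = 𝒟.c2 x₂ y₂ ∧ lab (𝒞.c3 v q.1 q.2) = ε with hS
      have hvp : 0 < 𝒟.val x₂ (𝒟.c2 x₂ y₂) := 𝒟.val_pos _ _
      have hvx : 0 < 𝒟.val v (𝒟.c2 v x₁) := 𝒟.val_pos _ _
      have hvy : 0 < 𝒟.val v (𝒟.c2 v y₁) := 𝒟.val_pos _ _
      have h2 : 𝒟.val v (𝒟.c2 v x₁) * 𝒟.val v (𝒟.c2 v y₁) ≤ 8 * B * S.card := by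
        refine Nat.le_of_mul_le_mul_left ?_ hvp
        refine h1.trans ?_
        rw [hy₁.1]
        rw [hτe]
        calc 8 * (𝒟.cls (𝒟.c1 y)).card * S.card ≤ 8 * (B * 𝒟.val x₂ τ) * S.card :=
              Nat.mul_le_mul_right _ (Nat.mul_le_mul_left _ hτB)
          _ = 𝒟.val x₂ τ * (8 * B * S.card) := by ring
      have hSne : S.Nonempty := by
        rw [← card_pos]
        rcases Nat.eq_zero_or_pos S.card with h | h
        · rw [h, mul_zero] at h2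
          have := Nat.mul_pos hvx hvy
          omega
        · exact h
      obtain ⟨q, hq, hqc⟩ := pigeon S hSne (fun q => (𝒟.fix v).c2 q.1 q.2)
        ((𝒟.fix v).rels ((𝒟.fix v).c1 x₁) ((𝒟.fix v).c1 y₁))
        ((hRB.2 v hvX).rels (by omega) hx₁X hy₁X) (fun q hq => by
          rw [hS, mem_filter] at hq
          refine (Cfg.mem_rels _ _ _ _).2 ⟨q.1, q.2, ?_, ?_, rfl⟩
          · rw [fc1, fc1]; exact hq.2.1
          · rw [fc1, fc1]; exact hq.2.2.1)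
      rw [hS, mem_filter] at hq
      obtain ⟨-, q1, q2, q3, q4⟩ := hq
      refine ⟨q.1, q.2, q1, q2, q3.trans hτe, ?_, q4, ?_⟩
      · rw [← hτR]; exact hr2 _ _ _ _ q3
      · have h3 : (S.filter fun w : V × V => (𝒟.fix v).c2 w.1 w.2 = (𝒟.fix v).c2 q.1 q.2).card ≤
            𝒟.val v (𝒟.c2 v x₁) * (𝒟.fix v).val q.1 ((𝒟.fix v).c2 q.1 q.2) := by
          refine (card_le_card (Finset.filter_subset_filter _ (subset_univ _))).trans ?_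
          have h4 := Cfg.card_pairs (𝒟.fix v) (show 2 ≤ M + j by omega) q.1 q.2
          rw [fcls, q1] at h4
          exact h4.le
        refine Nat.le_of_mul_le_mul_left ?_ hvx
        calc 𝒟.val v (𝒟.c2 v x₁) * 𝒟.val v (𝒟.c2 v y₁) ≤ 8 * B * S.card := h2
          _ ≤ 8 * B * (Q * (𝒟.val v (𝒟.c2 v x₁) *
                (𝒟.fix v).val q.1 ((𝒟.fix v).c2 q.1 q.2))) :=
              Nat.mul_le_mul_left _ (hqc.trans (Nat.mul_le_mul_left _ h3))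
          _ = _ := by ring
    haveI : Nonempty V := ⟨x⟩
    choose! fa fb k1 k2 k3 k4 k5 k6 using key
    set Φ : ι × ZMod 3 → ι := fun q => (𝒟.fix v).c2 (fa q.1 q.2) (fb q.1 q.2) with hΦ
    have hinj : Set.InjOn Φ (𝒜 ×ˢ (univ : Finset (ZMod 3)) : Finset (ι × ZMod 3)) := by
      rintro ⟨τ, ε⟩ hq ⟨τ', ε'⟩ hq' he
      rw [mem_coe, mem_product] at hq hq'
      simp only [hΦ, fc2] at he
      have h1 := (𝒟.c3_sub (by omega) he).2.2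
      have h2 := hr3 _ _ _ _ _ _ he
      rw [k3 τ hq.1 ε, k3 τ' hq'.1 ε'] at h1
      have h3 := congrArg lab h2
      rw [k5 τ hq.1 ε, k5 τ' hq'.1 ε'] at h3
      exact Prod.ext h1 h3
    have hcard : ((𝒜 ×ˢ (univ : Finset (ZMod 3))).image Φ).card = 𝒜.card * 3 := by
      rw [Finset.card_image_of_injOn hinj, card_product, card_univ, ZMod.card]
    have fin := ih (𝒟.fix v)
      (fun a b a' b' h => by
        rw [fc2, fc2] at h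
        exact hr2 _ _ _ _ (𝒟.c3_sub (by omega) h).2.2)
      (fun a b c a' b' c' h => by
        rw [fc3, fc3] at h
        exact hr3 _ _ _ _ _ _ (𝒟.c4_sub (by omega) h).2.2.2)
      (hRB.2 v hvX) x₁ y₁ hx₁X hy₁X ((𝒜 ×ˢ (univ : Finset (ZMod 3))).image Φ)
      (A * (L₀ * Q)) (8 * B * Q) (Nat.mul_pos hA1 (Nat.mul_pos hL₀ hQ))
      (Nat.mul_pos (by omega) hQ)
      (by rw [fcls]; exact nx) (by rw [fcls]; exact ny)
      (by
        intro c hc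
        obtain ⟨⟨τ, ε⟩, hq, rfl⟩ := mem_image.1 hc
        rw [mem_product] at hq
        refine ⟨fa τ ε, fb τ ε, ?_, ?_, rfl, k4 τ hq.1 ε, ?_⟩
        · rw [fc1, fc1]; exact k1 τ hq.1 ε
        · rw [fc1, fc1]; exact k2 τ hq.1 ε
        · rw [fcls]; exact k6 τ hq.1 ε)
      (by
        refine le_trans (le_of_eq ?_) hL
        rw [hΛ]
        ring)
    rw [hcard] at fin
    calc 3 ^ (j + 1) * 𝒜.card = 3 ^ j * (𝒜.card * 3) := by ring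
      _ ≤ Q := fin

end Vale.Agent.P319.SC.H323
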