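import Vale.Agent.P319.SC.H323.Dich
import Vale.Agent.P319.SC.H323.Iter
import Vale.Agent.P319.SC.H773.Main34

/-! P319, block SC: the accounting of the `m ^ (3/2)` theorem. -/

namespace Vale.Agent.P319.SC.H323

open Finset Vale.Agent.P319.SC

set_option linter.all false

/-- **TARGET**: `m ^ (3/2) ≤ C log n` -/
def Main23Stmt : Prop := ∃ C : ℕ, ∀ (V ι : Type) [Fintype V] [DecidableEq V] [DecidableEq ι]
  (m : ℕ) (𝒞 : Cfg V ι m), 2 ≤ Fintype.card V → (∀ a b : V, 𝒞.c1 a = 𝒞.c1 b) →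
    m ^ 3 ≤ C * Nat.log 2 (Fintype.card V) ^ 2

theorem big_of (hD : DegStmt) {V ι : Type} [Fintype V] [DecidableEq V] [DecidableEq ι] {M : ℕ}
    (hM : 5 ≤ M) : ∀ k, M ≤ k → ∀ 𝒟 : Cfg V ι k, BigRank 𝒟 (2 ^ (M - 5)) := by
  intro k hk 𝒟 A h1 h2 h3
  exact le_trans (Nat.pow_le_pow_right (by norm_num) (by omega))
    (bigRank_of hD (by omega) 𝒟 A h1 h2 h3)

theorem par23 (W M : ℕ) (hM : 160 * W ^ 2 + 640 * W + 610 ≤ M) :
    2 ^ 24 * (1 * 2 ^ (W + 1) * (8 * 2 ^ (W + 1) * (3 ^ (W + 1)) ^ 2) ^ (W + 2) *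
      2 ^ (W + 1)) ^ 32 < 2 ^ (M - 5) := by
  have h1 : (3 ^ (W + 1)) ^ 2 ≤ 2 ^ (4 * W + 4) := by
    calc (3 ^ (W + 1)) ^ 2 = 9 ^ (W + 1) := by rw [← pow_mul, mul_comm, pow_mul]; norm_num
      _ ≤ 16 ^ (W + 1) := Nat.pow_le_pow_left (by norm_num) _
      _ = 2 ^ (4 * W + 4) := by
        rw [show 4 * W + 4 = 4 * (W + 1) by ring, pow_mul]; norm_num
  have h2 : 8 * 2 ^ (W + 1) * (3 ^ (W + 1)) ^ 2 ≤ 2 ^ (5 * W + 8) := by
    calc 8 * 2 ^ (W + 1) * (3 ^ (W + 1)) ^ 2 ≤ 8 * 2 ^ (W + 1) * 2 ^ (4 * W + 4) :=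
          Nat.mul_le_mul_left _ h1
      _ = 2 ^ (5 * W + 8) := by
        rw [show (8 : ℕ) = 2 ^ 3 by norm_num, ← pow_add, ← pow_add]
        congr 1
        ring
  calc 2 ^ 24 * (1 * 2 ^ (W + 1) * (8 * 2 ^ (W + 1) * (3 ^ (W + 1)) ^ 2) ^ (W + 2) *
      2 ^ (W + 1)) ^ 32
      ≤ 2 ^ 24 * (1 * 2 ^ (W + 1) * (2 ^ (5 * W + 8)) ^ (W + 2) * 2 ^ (W + 1)) ^ 32 := by
        refine Nat.mul_le_mul_left _ (Nat.pow_le_pow_left (Nat.mul_le_mul_right _
          (Nat.mul_le_mul_left _ (Nat.pow_le_pow_left h2 _))) _)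
    _ = 2 ^ (24 + 32 * ((W + 1) + (5 * W + 8) * (W + 2) + (W + 1))) := by
        rw [one_mul, ← pow_mul, ← pow_add, ← pow_add, ← pow_mul, ← pow_add]
        congr 1
        ring
    _ < 2 ^ (M - 5) := by
        refine Nat.pow_lt_pow_right (by norm_num) ?_
        have : 24 + 32 * ((W + 1) + (5 * W + 8) * (W + 2) + (W + 1)) =
            160 * W ^ 2 + 640 * W + 600 := by ring
        omega

/-- the chain -/
theorem chain23 (hTri : TripleStmt) (hG : GroMinStmt) (hD : DegStmt) (V ι : Type) [Fintype V]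
    [DecidableEq V] [DecidableEq ι] (W : ℕ) (hW : 1 ≤ W) (K : ℕ)
    (hK : 160 * W ^ 2 + 640 * W + 610 ≤ K) :
    ∀ (t m : ℕ) (𝒞 : Cfg V ι m), t + K ≤ m →
      ∀ (ρ : ι), 2 ≤ (𝒞.cls ρ).card →
      (∀ i, i ≤ 3 * W → 3 * 4 ^ i ≤ 3 ^ i * (𝒞.rels ρ ρ).card →
        2 ^ (W * t) ≤ (𝒞.cls ρ).card * 2 ^ (W * (3 * W - i) + W * (W + 2))) ∧
      (3 ^ (W + 1) < (𝒞.rels ρ ρ).card → 2 ^ (W * t) ≤ (𝒞.cls ρ).card) := by
  intro t
  induction t using Nat.strong_induction_on with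
  | _ t ih =>
  intro m 𝒞 hm ρ h2
  rcases Nat.eq_zero_or_pos t with rfl | ht
  · refine ⟨fun i _ _ => ?_, fun _ => ?_⟩
    · rw [mul_zero, pow_zero]
      exact Nat.mul_pos (by omega) (Nat.pow_pos (by norm_num))
    · rw [mul_zero, pow_zero]
      omega
  set n := (𝒞.cls ρ).card with hn
  set r := (𝒞.rels ρ ρ).card with hrdef
  have ht1 : ∀ a b : ℕ, 2 ^ (W * (t - 1)) ≤ a → a * 2 ^ W ≤ b → 2 ^ (W * t) ≤ b := by
    intro a b h1 h2
    calc 2 ^ (W * t) = 2 ^ (W * (t - 1)) * 2 ^ W := by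
          rw [← pow_add]; congr 1
          obtain ⟨t', rfl⟩ : ∃ t', t = t' + 1 := ⟨t - 1, by omega⟩
          rw [Nat.add_sub_cancel]; ring
      _ ≤ a * 2 ^ W := Nat.mul_le_mul_right _ h1
      _ ≤ b := h2
  -- the big gain
  have big : ∀ (m' : ℕ) (_ : m' + 6 = m) (𝒟 : Cfg V ι (m' + 5)) (σ : ι), 2 ≤ (𝒟.cls σ).card →
      3 ≤ (𝒟.rels σ σ).card → 2 ^ (m' + 1) * (𝒟.cls σ).card ^ 3 ≤ n ^ 3 →
      2 ^ (W * t) ≤ n := by
    intro m' hm' 𝒟 σ k1 k2 k3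
    have k4 := (ih (t - 1) (by omega) (m' + 5) 𝒟 (by omega) σ k1).1 0 (by omega) (by omega)
    refine ht1 _ _ k4 ?_
    have k5 : (2 ^ (4 * W ^ 2 + 3 * W) * (𝒟.cls σ).card) ^ 3 ≤ n ^ 3 := by
      refine le_trans ?_ k3
      rw [mul_pow, ← pow_mul]
      refine Nat.mul_le_mul_right _ (Nat.pow_le_pow_right (by norm_num) ?_)
      omega
    have k6 : 2 ^ (4 * W ^ 2 + 3 * W) * (𝒟.cls σ).card ≤ n :=
      (Nat.pow_le_pow_iff_left (by norm_num)).1 k5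
    refine le_trans (le_of_eq ?_) k6
    rw [mul_assoc, ← pow_add, mul_comm]
    congr 2
    rw [Nat.sub_zero]; ring
  obtain ⟨m', hm'⟩ : ∃ m', m' + 6 = m := ⟨m - 6, by omega⟩
  have h23 : 2 ^ W ≤ 3 ^ (W + 1) :=
    (Nat.pow_le_pow_left (by norm_num) _).trans (Nat.pow_le_pow_right (by norm_num) (by omega))
  refine ⟨?_, ?_⟩
  swap
  · -- large rank
    intro hr
    subst hm'
    obtain ⟨v, σ, hv, hs2, hs3, hmin, hmul, hor⟩ := hG V ι m' 𝒞 ρ h2
    rcases hor with hor | hor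
    · exact big m' rfl (𝒞.fix v) σ hs2 hs3 hor
    · refine ht1 _ _ ((ih (t - 1) (by omega) (m' + 5) (𝒞.fix v) (by omega) σ hs2).2 (by omega)) ?_
      calc ((𝒞.fix v).cls σ).card * 2 ^ W = 2 ^ W * ((𝒞.fix v).cls σ).card := mul_comm _ _
        _ ≤ (r - 1) * ((𝒞.fix v).cls σ).card := Nat.mul_le_mul_right _ (by omega)
        _ ≤ n := hmul
  intro i hi hr
  by_cases hA : 2 ^ W < r ∨ ∃ a z, 𝒞.c1 a = ρ ∧ 𝒞.c1 z = ρ ∧ a ≠ z ∧
      𝒞.val a (𝒞.c2 a z) * 2 ^ W ≤ n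
  · -- large rank or a light colour: a gain of `W` bits
    subst hm'
    obtain ⟨v, σ, hv, hs2, hs3, hmin, hmul, hor⟩ := hG V ι m' 𝒞 ρ h2
    have hgain : ((𝒞.fix v).cls σ).card * 2 ^ W ≤ n := by
      rcases hA with hA | ⟨a, z, ha, hz, haz, hval⟩
      · calc ((𝒞.fix v).cls σ).card * 2 ^ W = 2 ^ W * ((𝒞.fix v).cls σ).card := mul_comm _ _
          _ ≤ (r - 1) * ((𝒞.fix v).cls σ).card := Nat.mul_le_mul_right _ (by omega)
          _ ≤ n := hmul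
      · refine le_trans (Nat.mul_le_mul_right _ ?_) hval
        exact hmin _ ((𝒞.mem_rels _ _ _).2 ⟨a, z, ha, hz, rfl⟩) a z ha rfl haz
    rcases hor with hor | hor
    · exact (big m' rfl (𝒞.fix v) σ hs2 hs3 hor).trans
        (Nat.le_mul_of_pos_right _ (Nat.pow_pos (by norm_num)))
    · have k4 := (ih (t - 1) (by omega) (m' + 5) (𝒞.fix v) (by omega) σ hs2).1 i hi
        (hr.trans (Nat.mul_le_mul_left _ (by omega)))
      refine ht1 _ _ k4 ?_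
      calc ((𝒞.fix v).cls σ).card * 2 ^ (W * (3 * W - i) + W * (W + 2)) * 2 ^ W
          = (((𝒞.fix v).cls σ).card * 2 ^ W) * 2 ^ (W * (3 * W - i) + W * (W + 2)) := by ring
        _ ≤ n * 2 ^ (W * (3 * W - i) + W * (W + 2)) := Nat.mul_le_mul_right _ hgain
  · push Not at hA
    obtain ⟨hrW, hval⟩ := hA
    -- the stage is not the last one
    have hi' : i < 3 * W := by
      rcases Nat.lt_or_ge i (3 * W) with h | h
      · exact h
      exfalso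
      have hi4 : i = 3 * W := by omega
      have e1 : 3 * 4 ^ (3 * W) ≤ 3 ^ (3 * W) * 2 ^ W := by
        rw [hi4] at hr
        exact hr.trans (Nat.mul_le_mul_left _ hrW)
      have e2 : 3 ^ (3 * W) * 2 ^ W = 54 ^ W := by
        rw [pow_mul, ← mul_pow]; norm_num
      have e3 : 4 ^ (3 * W) = 64 ^ W := by rw [pow_mul]; norm_num
      have e4 : 54 ^ W ≤ 64 ^ W := Nat.pow_le_pow_left (by norm_num) _
      have e5 : 0 < 64 ^ W := Nat.pow_pos (by norm_num)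
      rw [e2, e3] at e1
      omega
    have hr3 : 3 ≤ r := Gro.three_rels 𝒞 (by omega) h2
    obtain ⟨x₀, hx₀, z₀, hz₀, hne⟩ := Finset.one_lt_card.1 (show 1 < (𝒞.cls ρ).card by omega)
    rw [𝒞.mem_cls] at hx₀ hz₀
    subst hx₀
    -- the colours occur
    have hDbig : BigRank 𝒞 (2 ^ (m - 5)) := bigRank_of hD (by omega) 𝒞
    have hpow : 4 * (2 ^ W) ^ 3 < 2 ^ (m - 5) := by
      rw [← pow_mul, show (4 : ℕ) = 2 ^ 2 by norm_num, ← pow_add]
      exact Nat.pow_lt_pow_right (by norm_num) (by omega)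
    have hocc : ∀ w₀, 𝒞.c1 w₀ = 𝒞.c1 x₀ → x₀ ≠ w₀ → ∀ T ∈ 𝒞.rels (𝒞.c1 x₀) (𝒞.c1 x₀),
        ∃ v z, 𝒞.c2 x₀ v = 𝒞.c2 x₀ w₀ ∧ 𝒞.c2 x₀ z = 𝒞.c2 x₀ w₀ ∧ 𝒞.c2 v z = T := by
      intro w₀ hw₀ hne₀ T hT
      obtain ⟨u, hu, rfl⟩ := 𝒞.exists_of_mem_rels (by omega) x₀ hT
      by_cases hux : x₀ = u
      · refine ⟨w₀, w₀, rfl, rfl, ?_⟩
        rw [← hux]
        exact 𝒞.c2_diag (by omega) hw₀
      have hP : ∀ z ∈ univ.filter (fun z => 𝒞.c2 x₀ z = 𝒞.c2 x₀ w₀), 𝒞.c1 z = 𝒞.c1 x₀ := by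
        intro z hz
        rw [mem_filter] at hz
        rw [(𝒞.c1_of_c2 (by omega) hz.2).2, hw₀]
      obtain ⟨v, hv, z, hz, hvz⟩ := occurs 𝒞 (by omega) hDbig hu hP hP (by
        have a1 := hval x₀ w₀ rfl hw₀ hne₀
        have a2 := hval x₀ u rfl hu hux
        change n < 𝒞.val x₀ (𝒞.c2 x₀ w₀) * 2 ^ W at a1
        change n < 𝒞.val x₀ (𝒞.c2 x₀ u) * 2 ^ W at a2
        change 4 * n ^ 3 < 𝒞.val x₀ (𝒞.c2 x₀ w₀) * (𝒞.val x₀ (𝒞.c2 x₀ u) *
          𝒞.val x₀ (𝒞.c2 x₀ w₀) * 2 ^ (m - 5))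
        set k := 𝒞.val x₀ (𝒞.c2 x₀ w₀)
        set l := 𝒞.val x₀ (𝒞.c2 x₀ u)
        have hk : 0 < k := 𝒞.val_pos _ _
        have hl : 0 < l := 𝒞.val_pos _ _
        calc 4 * n ^ 3 = 4 * (n * (n * n)) := by ring
          _ ≤ 4 * ((k * 2 ^ W) * ((l * 2 ^ W) * (k * 2 ^ W))) :=
            Nat.mul_le_mul_left _ (Nat.mul_le_mul a1.le (Nat.mul_le_mul a2.le a1.le))
          _ = (k * (l * k)) * (4 * (2 ^ W) ^ 3) := by ring
          _ < (k * (l * k)) * 2 ^ (m - 5) :=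
            Nat.mul_lt_mul_of_pos_left hpow (Nat.mul_pos hk (Nat.mul_pos hl hk))
          _ = k * (l * k * 2 ^ (m - 5)) := by ring)
      rw [mem_filter] at hv hz
      exact ⟨v, z, hv.2, hz.2, hvz⟩
    -- the transposed colour over `x₀`
    obtain ⟨e, he⟩ := 𝒞.ext1 (show 2 ≤ m by omega) hz₀
    have hze : 𝒞.c2 z₀ x₀ = 𝒞.c2 x₀ (e x₀) := he x₀
    have hex : x₀ ≠ e x₀ := by
      intro h
      exact hne ((𝒞.eq_of_c2 (by omega) hze).2 h).symm
    have hec : 𝒞.c1 (e x₀) = 𝒞.c1 x₀ := by rw [← (𝒞.c1_of_c2 (by omega) (he x₀)).2]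
    obtain ⟨m₁, rfl⟩ : ∃ m₁, m = m₁ + 1 := ⟨m - 1, by omega⟩
    rcases dich 𝒞 (by omega) hz₀ (hocc z₀ hz₀ hne) (by
      rw [hze]; exact hocc _ hec hex) with ⟨T, hT, hTd, uR, uL⟩ | hB
    · -- case (A)
      rcases Nat.lt_or_ge t (W + 2) with htW | htW
      · calc 2 ^ (W * t) ≤ 2 ^ (W * (3 * W - i) + W * (W + 2)) := by
              refine Nat.pow_le_pow_right (by norm_num) ?_
              have : W * t ≤ W * (W + 2) := Nat.mul_le_mul_left _ htW.le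
              omega
          _ ≤ n * 2 ^ (W * (3 * W - i) + W * (W + 2)) := Nat.le_mul_of_pos_left _ (by omega)
      by_contra hcon
      rw [not_le] at hcon
      obtain ⟨M, hM⟩ : ∃ M, m₁ + 1 = M + (W + 2) := ⟨m₁ + 1 - (W + 2), by omega⟩
      clear hocc he
      revert 𝒞
      rw [hM]
      intro 𝒞 n h2 hn r hrdef big hr hrW hval hr3 hz₀ hDbig hze hec hT hTd uR uL hcon
      have hM2 : 160 * W ^ 2 + 640 * W + 610 ≤ M := by omega
      have hrb : RB (𝒞.cls (𝒞.c1 x₀)) (3 ^ (W + 1)) M (W + 2) 𝒞 := by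
        refine rb_of (𝒞.cls (𝒞.c1 x₀)) (3 ^ (W + 1)) M (by omega) ?_ (W + 2) 𝒞 ?_
        · intro m₂ 𝒟 hm₂ a ha hsub
          by_contra hlt
          rw [not_le] at hlt
          have c1 : 2 ≤ (𝒟.cls (𝒟.c1 a)).card := two_le_of_rels _ _ (by
            have : 1 ≤ 3 ^ (W + 1) := Nat.one_le_pow _ _ (by norm_num)
            omega)
          have k4 := (ih (t - (W + 2)) (by omega) m₂ 𝒟 (by omega) (𝒟.c1 a) c1).2 hlt
          refine absurd ?_ (not_le.2 hcon)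
          calc 2 ^ (W * t) = 2 ^ (W * (t - (W + 2))) * 2 ^ (W * (W + 2)) := by
                rw [← pow_add]; congr 1
                obtain ⟨t', rfl⟩ : ∃ t', t = t' + (W + 2) := ⟨t - (W + 2), by omega⟩
                rw [Nat.add_sub_cancel]; ring
            _ ≤ n * 2 ^ (W * (W + 2)) :=
                Nat.mul_le_mul_right _ (k4.trans (card_le_card hsub))
            _ ≤ n * 2 ^ (W * (3 * W - i) + W * (W + 2)) :=
                Nat.mul_le_mul_left _ (Nat.pow_le_pow_right (by norm_num) (by omega))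
        · intro a b hab ha
          rw [𝒞.mem_cls] at ha ⊢
          rw [← hab, ha]
      obtain ⟨lab, hlab⟩ := exists_lab 𝒞 (by omega) (R := 𝒞.c2 x₀ z₀) (fun v h =>
        hne ((𝒞.eq_of_c2 (by omega) h).1 rfl))
      have hvall : ∀ v w, 𝒞.c1 v = 𝒞.c1 x₀ → 𝒞.c1 w = 𝒞.c1 x₀ → v ≠ w →
          2 * n ≤ 2 ^ (W + 1) * 𝒞.val v (𝒞.c2 v w) := by
        intro v w hv hw hvw
        have := hval v w hv hw hvw
        rw [pow_succ]
        calc 2 * n ≤ 2 * (𝒞.val v (𝒞.c2 v w) * 2 ^ W) := Nat.mul_le_mul_left _ this.le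
          _ = 2 ^ W * 2 * 𝒞.val v (𝒞.c2 v w) := by ring
      have G : TGround (m := M + W) 𝒞 (𝒞.c2 x₀ z₀) T lab (𝒞.c1 x₀) (2 ^ (M - 5))
          (1 * 2 ^ (W + 1) * (8 * 2 ^ (W + 1) * (3 ^ (W + 1)) ^ 2) ^ (W + 2) * 2 ^ (W + 1))
          (2 ^ (W + 1)) M :=
        { hm := by omega
          hMm := by omega
          big := big_of hD (by omega)
          hR := (𝒞.mem_rels _ _ _).2 ⟨x₀, z₀, rfl, hz₀, rfl⟩
          hT := hT
          hlab := hlab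
          uR := uR
          uL := uL
          vR := by
            intro v hv
            have := hvall x₀ z₀ rfl hz₀ hne
            rwa [𝒞.val_eq (by omega) hv.symm] at this
          vT := by
            intro v hv
            obtain ⟨u, hu, rfl⟩ := 𝒞.exists_of_mem_rels (by omega) x₀ hT
            have hxu : x₀ ≠ u := by
              rintro rfl
              exact hTd rfl
            have := hvall x₀ u rfl hu hxu
            rw [𝒞.val_eq (by omega) hv.symm] at this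
            omega
          hD := par23 W M hM2 }
      have fin := tri_rec hTri G (by omega) (Q := 3 ^ (W + 1)) (Nat.one_le_pow _ _ (by norm_num))
        (Nat.one_le_pow _ _ (by norm_num)) (W + 2) 𝒞 (fun _ _ _ _ h => h)
        (fun _ _ _ _ _ _ h => h) hrb x₀ z₀ ((𝒞.mem_cls _ _).2 rfl) ((𝒞.mem_cls _ _).2 hz₀)
        {𝒞.c2 x₀ z₀} 1 (2 ^ (W + 1)) le_rfl (Nat.one_le_pow _ _ (by norm_num)) (by rw [one_mul])
        (by rw [one_mul, hz₀])
        (by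
          intro τ hτ
          rw [mem_singleton] at hτ
          subst hτ
          refine ⟨x₀, z₀, rfl, rfl, rfl, rfl, ?_⟩
          have := hvall x₀ z₀ rfl hz₀ hne
          rw [hz₀]
          omega)
        le_rfl
      rw [card_singleton, mul_one, pow_succ 3 (W + 1)] at fin
      have : 0 < 3 ^ (W + 1) := Nat.pow_pos (by norm_num)
      omega
    · -- case (B)
      have hstep : ∀ w₀, 𝒞.c1 w₀ = 𝒞.c1 x₀ →
          3 * r ≤ 2 * ((𝒞.fix x₀).rels (𝒞.c2 x₀ w₀) (𝒞.c2 x₀ w₀)).card + 1 →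
          2 ^ (W * t) ≤ n * 2 ^ (W * (3 * W - i) + W * (W + 2)) := by
        intro w₀ hw₀ h3
        have hc2 : 2 ≤ ((𝒞.fix x₀).cls (𝒞.c2 x₀ w₀)).card := two_le_of_rels _ _ (by omega)
        have k4 := (ih (t - 1) (by omega) m₁ (𝒞.fix x₀) (by omega) (𝒞.c2 x₀ w₀) hc2).1 (i + 1)
          (by omega) (by
            calc 3 * 4 ^ (i + 1) = 4 * (3 * 4 ^ i) := by ring
              _ ≤ 4 * (3 ^ i * r) := Nat.mul_le_mul_left _ hr
              _ = 3 ^ i * (4 * r) := by ring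
              _ ≤ 3 ^ i * (3 * ((𝒞.fix x₀).rels (𝒞.c2 x₀ w₀) (𝒞.c2 x₀ w₀)).card) :=
                Nat.mul_le_mul_left _ (by omega)
              _ = 3 ^ (i + 1) * ((𝒞.fix x₀).rels (𝒞.c2 x₀ w₀) (𝒞.c2 x₀ w₀)).card := by ring)
        refine ht1 _ _ k4 ?_
        have hle : ((𝒞.fix x₀).cls (𝒞.c2 x₀ w₀)).card ≤ n := by
          rw [← 𝒞.val_eq_fix (by omega)]
          refine card_le_card fun z hz => ?_
          rw [mem_filter] at hz
          rw [𝒞.mem_cls, (𝒞.c1_of_c2 (by omega) hz.2).2, hw₀]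
        have hexp : W * (3 * W - i) = W * (3 * W - (i + 1)) + W := by
          obtain ⟨d, hd⟩ : ∃ d, 3 * W = i + 1 + d := ⟨3 * W - (i + 1), by omega⟩
          have h1 : 3 * W - i = d + 1 := by omega
          have h2 : 3 * W - (i + 1) = d := by omega
          rw [h1, h2]; ring
        calc ((𝒞.fix x₀).cls (𝒞.c2 x₀ w₀)).card *
              2 ^ (W * (3 * W - (i + 1)) + W * (W + 2)) * 2 ^ W
            = ((𝒞.fix x₀).cls (𝒞.c2 x₀ w₀)).card * 2 ^ (W * (3 * W - i) + W * (W + 2)) := by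
              rw [mul_assoc, ← pow_add, hexp]
              congr 2
              ring
          _ ≤ n * 2 ^ (W * (3 * W - i) + W * (W + 2)) := Nat.mul_le_mul_right _ hle
      by_cases hcase : 3 * r ≤ 2 * ((𝒞.fix x₀).rels (𝒞.c2 x₀ z₀) (𝒞.c2 x₀ z₀)).card + 1
      · exact hstep z₀ hz₀ hcase
      · refine hstep (e x₀) hec ?_
        rw [← hze]
        omega

/-- **package MAIN23** -/
theorem main23_of (hTri : TripleStmt) (hG : GroMinStmt) (hD : DegStmt) : Main23Stmt := by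
  refine ⟨2 ^ 35, ?_⟩
  intro V ι _ _ _ m 𝒞 hn hom
  have hlogn : 1 ≤ Nat.log 2 (Fintype.card V) := Nat.log_pos (by norm_num) hn
  set l := Nat.log 2 (Fintype.card V) with hl
  rcases Nat.lt_or_ge m 2840 with hm | hm
  · calc m ^ 3 ≤ 2840 ^ 3 := Nat.pow_le_pow_left hm.le 3
      _ ≤ 2 ^ 35 * 1 := by norm_num
      _ ≤ 2 ^ 35 * l ^ 2 := Nat.mul_le_mul_left _ (Nat.one_le_pow _ _ hlogn)
  · -- the choice of `W`
    obtain ⟨W, hW1, hW2, hW3⟩ : ∃ W, 1 ≤ W ∧ 2840 * W ^ 2 ≤ m ∧ m < 2840 * (W + 1) ^ 2 := by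
      have hP1 : 2840 * 1 ^ 2 ≤ m := by omega
      refine ⟨Nat.findGreatest (fun W => 2840 * W ^ 2 ≤ m) m, ?_, ?_, ?_⟩
      · exact Nat.le_findGreatest (by omega) hP1
      · exact Nat.findGreatest_spec (P := fun W => 2840 * W ^ 2 ≤ m) (show 1 ≤ m by omega) hP1
      · by_contra hcon
        rw [not_lt] at hcon
        have h1 : Nat.findGreatest (fun W => 2840 * W ^ 2 ≤ m) m + 1 ≤ m := by
          set w := Nat.findGreatest (fun W => 2840 * W ^ 2 ≤ m) m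
          have : w + 1 ≤ (w + 1) ^ 2 := Nat.le_self_pow (by norm_num) _
          omega
        have h2 := Nat.le_findGreatest (P := fun W => 2840 * W ^ 2 ≤ m) h1 hcon
        omega
    have hWa : W ≤ W ^ 2 := Nat.le_self_pow (by norm_num) _
    have hWc : 1 ≤ W ^ 2 := Nat.one_le_pow _ _ hW1
    obtain ⟨t, ht⟩ : ∃ t, m = t + (160 * W ^ 2 + 640 * W + 610) :=
      ⟨m - (160 * W ^ 2 + 640 * W + 610), by omega⟩
    have ht2 : m ≤ 4 * (t - (4 * W + 2)) := by omega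
    have ht3 : 4 * W + 2 ≤ t := by omega
    obtain ⟨x0⟩ : Nonempty V := Fintype.card_pos_iff.1 (by omega)
    have hcls : 𝒞.cls (𝒞.c1 x0) = univ := by
      ext a
      simp [Cfg.cls, hom a x0]
    have h2 : 2 ≤ (𝒞.cls (𝒞.c1 x0)).card := by rw [hcls, card_univ]; exact hn
    have key := (chain23 hTri hG hD V ι W hW1 _ le_rfl t m 𝒞 ht.ge (𝒞.c1 x0) h2).1 0 (by omega)
      (by
        have := Gro.three_rels 𝒞 (by omega) h2
        omega)
    rw [hcls, card_univ, Nat.sub_zero] at key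
    have key2 : 2 ^ (W * (t - (4 * W + 2))) ≤ Fintype.card V := by
      have e : 2 ^ (W * (t - (4 * W + 2))) * 2 ^ (W * (3 * W) + W * (W + 2)) = 2 ^ (W * t) := by
        rw [← pow_add]; congr 1
        obtain ⟨t', rfl⟩ : ∃ t', t = t' + (4 * W + 2) := ⟨t - (4 * W + 2), by omega⟩
        rw [Nat.add_sub_cancel]; ring
      rw [← e] at key
      exact Nat.le_of_mul_le_mul_right key (Nat.pow_pos (by norm_num))
    have key3 : W * (t - (4 * W + 2)) ≤ l := by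
      rw [hl, Nat.le_log_iff_pow_le (by norm_num) (by omega)]
      exact key2
    have key4 : W * m ≤ 4 * l := by
      calc W * m ≤ W * (4 * (t - (4 * W + 2))) := Nat.mul_le_mul_left _ ht2
        _ = 4 * (W * (t - (4 * W + 2))) := by ring
        _ ≤ 4 * l := Nat.mul_le_mul_left _ key3
    have key5 : (W * m) ^ 2 ≤ (4 * l) ^ 2 := Nat.pow_le_pow_left key4 2
    have hm8 : m ≤ 11360 * W ^ 2 := by
      have : (W + 1) ^ 2 ≤ (2 * W) ^ 2 := Nat.pow_le_pow_left (by omega) 2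
      have e : (2 * W) ^ 2 = 4 * W ^ 2 := by ring
      omega
    calc m ^ 3 = m * m ^ 2 := by ring
      _ ≤ (11360 * W ^ 2) * m ^ 2 := Nat.mul_le_mul_right _ hm8
      _ = 11360 * (W * m) ^ 2 := by ring
      _ ≤ 11360 * (4 * l) ^ 2 := Nat.mul_le_mul_left _ key5
      _ = 181760 * l ^ 2 := by ring
      _ ≤ 2 ^ 35 * l ^ 2 := Nat.mul_le_mul_right _ (by norm_num)

end Vale.Agent.P319.SC.H323
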