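import Vale.Agent.P319.SC.H323.Mix
import Vale.Agent.P319.SC.H232.AM

/-! P319, block SC: the block lemma. If the ranks of all classes over at most `j` points are smaller
than `4/3` of the rank of the class `X`, then the rank is at least `3 ^ j`. -/

namespace Vale.Agent.P319.SC.H323

open Finset Vale.Agent.P319.SC

set_option linter.all false

variable {V ι : Type} [Fintype V] [DecidableEq V] [DecidableEq ι]

/-- the ranks of all classes inside `X` over at most `j` points of `X` are at most `Q` -/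
def RB (X : Finset V) (Q M : ℕ) : (j : ℕ) → Cfg V ι (M + j) → Prop
  | 0, 𝒟 => ∀ a ∈ X, (𝒟.rels (𝒟.c1 a) (𝒟.c1 a)).card ≤ Q
  | j + 1, 𝒟 => (∀ a ∈ X, (𝒟.rels (𝒟.c1 a) (𝒟.c1 a)).card ≤ Q) ∧
      ∀ x ∈ X, RB X Q M j (𝒟.fix x)

theorem RB.zero {X : Finset V} {Q M j : ℕ} {𝒟 : Cfg V ι (M + j)} (h : RB X Q M j 𝒟) :
    ∀ a ∈ X, (𝒟.rels (𝒟.c1 a) (𝒟.c1 a)).card ≤ Q := by
  cases j with
  | zero => exact h
  | succ j => exact h.1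

theorem RB.rels {X : Finset V} {Q M j : ℕ} (hM : 3 ≤ M) {𝒟 : Cfg V ι (M + j)} (h : RB X Q M j 𝒟)
    {a b : V} (ha : a ∈ X) (hb : b ∈ X) : (𝒟.rels (𝒟.c1 a) (𝒟.c1 b)).card ≤ Q := by
  have h1 := H232.am V ι (M + j) 𝒟 (by omega) (𝒟.c1 a) (𝒟.c1 b)
  have h2 := h.zero a ha
  have h3 := h.zero b hb
  omega

/-- the counting lemma: few coarse colours are split -/
theorem count_bad {𝒯 Col : Finset ι} {Q : ℕ} (hCol : Col.card ≤ Q) (Al : V → V → Prop)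
    (F g : V → V → ι) (hF : ∀ v z, Al v z → F v z ∈ Col)
    (hFg : ∀ v z v' z', Al v z → Al v' z' → F v z = F v' z' → g v z = g v' z')
    (hex : ∀ T ∈ 𝒯, ∃ v z, Al v z ∧ g v z = T) :
    ∃ Bad : Finset ι, Bad.card + 𝒯.card ≤ Q ∧ ∀ T ∈ 𝒯, T ∉ Bad → ∀ v z v' z', Al v z → Al v' z' →
      g v z = T → g v' z' = T → F v z = F v' z' := by
  classical
  set P : ι → Prop := fun T => ∀ v z v' z', Al v z → Al v' z' →
      g v z = T → g v' z' = T → F v z = F v' z' with hP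
  refine ⟨𝒯.filter fun T => ¬ P T, ?_, ?_⟩
  · set U : ι → Finset ι := fun T => Col.filter fun c => ∃ v z, Al v z ∧ g v z = T ∧ F v z = c
      with hU
    have hmem : ∀ T v z, Al v z → g v z = T → F v z ∈ U T := fun T v z h1 h2 =>
      mem_filter.2 ⟨hF v z h1, v, z, h1, h2, rfl⟩
    have h1 : ∀ T ∈ 𝒯, 1 + (if ¬ P T then 1 else 0) ≤ (U T).card := by
      intro T hT
      split_ifs with hb
      · obtain ⟨v, z, h1, h2⟩ := hex T hT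
        have := card_pos.2 ⟨_, hmem T v z h1 h2⟩
        omega
      · simp only [hP, not_forall] at hb
        obtain ⟨v, z, v', z', h1, h2, h3, h4, h5⟩ := hb
        have : 1 < (U T).card :=
          Finset.one_lt_card.2 ⟨_, hmem T v z h1 h3, _, hmem T v' z' h2 h4, h5⟩
        omega
    have h2 : (𝒯.biUnion U).card = ∑ T ∈ 𝒯, (U T).card := by
      refine Finset.card_biUnion fun T hT T' hT' hne => ?_
      show Disjoint (U T) (U T')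
      rw [Finset.disjoint_left]
      intro c hc hc'
      obtain ⟨-, v, z, a1, a2, a3⟩ := mem_filter.1 hc
      obtain ⟨-, v', z', b1, b2, b3⟩ := mem_filter.1 hc'
      exact hne (by rw [← a2, ← b2]; exact hFg _ _ _ _ a1 b1 (a3.trans b3.symm))
    have h3 : (𝒯.biUnion U).card ≤ Col.card := by
      refine card_le_card fun c hc => ?_
      obtain ⟨T, hT, hc⟩ := mem_biUnion.1 hc
      exact (mem_filter.1 hc).1
    have h4 := Finset.sum_le_sum h1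
    rw [Finset.sum_add_distrib, Finset.sum_const, smul_eq_mul, mul_one, ← Finset.card_filter] at h4
    omega
  · intro T hT hnb
    by_contra h
    exact hnb (mem_filter.2 ⟨hT, h⟩)

/-- the ground data: the coarse colours of pairs and triples, the three rotated colours `E ε` of
triples of type `(R, R, R)`, the mixing property -/
structure Ground (X : Finset V) (g : V → V → ι) (e : V → V → V → ι) (R : ι) (E : Fin 3 → ι)
    (𝒯 : Finset ι) (L B D : ℕ) : Prop where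
  hE : ∀ ε v x y, e v x y = E ε → g v x = R ∧ g y v = R
  hinj : Function.Injective E
  hL : 0 < L
  mix : ∀ T ∈ 𝒯, ∀ P ⊆ X, (X.filter fun v => L * (P.filter fun z => g v z = T).card <
    P.card).card * P.card * D ≤ B

variable {X : Finset V} {g : V → V → ι} {e : V → V → V → ι} {R : ι} {E : Fin 3 → ι}
  {𝒯 : Finset ι} {L B D : ℕ}

theorem Ground.occurs (G : Ground X g e R E 𝒯 L B D) {N : ℕ} (hN : B < N * N * D) {T : ι}
    (hT : T ∈ 𝒯) {P P' : Finset V} (hP : P ⊆ X) (hP' : P' ⊆ X) (h : N ≤ P.card)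
    (h' : N ≤ P'.card) : ∃ v ∈ P, ∃ z ∈ P', g v z = T := by
  by_contra hcon
  push Not at hcon
  have h1 : P ⊆ X.filter fun v => L * (P'.filter fun z => g v z = T).card < P'.card := by
    intro v hv
    refine mem_filter.2 ⟨hP hv, ?_⟩
    have : (P'.filter fun z => g v z = T) = ∅ :=
      Finset.filter_eq_empty_iff.2 fun z hz => hcon v hv z hz
    rw [this, card_empty, mul_zero]
    have hNpos : 0 < N := by
      rcases Nat.eq_zero_or_pos N with h0 | h0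
      · subst h0; simp at hN
      · exact h0
    omega
  have h2 := G.mix T hT P' hP'
  have h3 := card_le_card h1
  have h4 : N * N * D ≤ B := by
    refine le_trans ?_ h2
    exact Nat.mul_le_mul_right _ (Nat.mul_le_mul (h.trans h3) h')
  omega

/-- few colours `T` are split over a point `x` -/
theorem count_pt (G : Ground X g e R E 𝒯 L B D) {Q M : ℕ} (hM : 3 ≤ M) {j : ℕ}
    (𝒟 : Cfg V ι (M + (j + 1)))
    (hr2 : ∀ a b a' b', 𝒟.c2 a b = 𝒟.c2 a' b' → g a b = g a' b')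
    (hRB : RB X Q M (j + 1) 𝒟) {p q ρ : ι} {N : ℕ} (hN : B < N * N * D)
    (hp : ∀ a, 𝒟.c1 a = p → a ∈ X) (hq : ∀ a, 𝒟.c1 a = q → a ∈ X)
    (Rel : V → V → Prop) (hRel : ∀ x z x' z', 𝒟.c2 x z = 𝒟.c2 x' z' → Rel x z → Rel x' z')
    (hbp : ∀ x v x' v', 𝒟.c1 x = ρ → 𝒟.c1 x' = ρ → 𝒟.c1 v = p → 𝒟.c1 v' = p → Rel x v →
      Rel x' v' → 𝒟.c2 x v = 𝒟.c2 x' v')
    (hbq : ∀ x v x' v', 𝒟.c1 x = ρ → 𝒟.c1 x' = ρ → 𝒟.c1 v = q → 𝒟.c1 v' = q → Rel x v →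
      Rel x' v' → 𝒟.c2 x v = 𝒟.c2 x' v')
    {x₀ : V} (hx₀ : 𝒟.c1 x₀ = ρ) (hx₀X : x₀ ∈ X) {P P' : Finset V}
    (hP : ∀ z ∈ P, 𝒟.c1 z = p ∧ Rel x₀ z) (hP' : ∀ z ∈ P', 𝒟.c1 z = q ∧ Rel x₀ z)
    (hPc : N ≤ P.card) (hPc' : N ≤ P'.card) :
    ∃ Bad : Finset ι, Bad.card + 𝒯.card ≤ Q ∧ ∀ T ∈ 𝒯, T ∉ Bad → ∀ x v z x' v' z',
      𝒟.c1 x = ρ → 𝒟.c1 x' = ρ → 𝒟.c1 v = p → 𝒟.c1 v' = p → 𝒟.c1 z = q → 𝒟.c1 z' = q →
      Rel x v → Rel x' v' → Rel x z → Rel x' z' → g v z = T → g v' z' = T →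
      𝒟.c3 x v z = 𝒟.c3 x' v' z' := by
  have hNpos : 0 < N := by
    rcases Nat.eq_zero_or_pos N with h0 | h0
    · subst h0; simp at hN
    · exact h0
  obtain ⟨v₁, hv₁⟩ := card_pos.1 (hNpos.trans_le hPc)
  obtain ⟨z₁, hz₁⟩ := card_pos.1 (hNpos.trans_le hPc')
  have hcol := (hRB.2 x₀ hx₀X).rels hM (hp v₁ (hP v₁ hv₁).1) (hq z₁ (hP' z₁ hz₁).1)
  have hm2 : 2 ≤ M + j := by omega
  have fc1 : ∀ a, (𝒟.fix x₀).c1 a = 𝒟.c2 x₀ a := fun a =>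
    Cfg.fix_c1 (m := M + j) 𝒟 (by omega) x₀ a
  have fc2 : ∀ a b, (𝒟.fix x₀).c2 a b = 𝒟.c3 x₀ a b := fun a b =>
    Cfg.fix_c2 (m := M + j) 𝒟 (by omega) x₀ a b
  have k1 : ∀ v z, (𝒟.c1 v = p ∧ 𝒟.c1 z = q ∧ Rel x₀ v ∧ Rel x₀ z) → (𝒟.fix x₀).c2 v z ∈
      (𝒟.fix x₀).rels ((𝒟.fix x₀).c1 v₁) ((𝒟.fix x₀).c1 z₁) := by
    rintro v z ⟨h1, h2, h3, h4⟩
    refine ((𝒟.fix x₀).mem_rels _ _ _).2 ⟨v, z, ?_, ?_, rfl⟩
    · rw [fc1, fc1]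
      exact hbp _ _ _ _ hx₀ hx₀ h1 (hP v₁ hv₁).1 h3 (hP v₁ hv₁).2
    · rw [fc1, fc1]
      exact hbq _ _ _ _ hx₀ hx₀ h2 (hP' z₁ hz₁).1 h4 (hP' z₁ hz₁).2
  have k2 : ∀ v z v' z', (𝒟.c1 v = p ∧ 𝒟.c1 z = q ∧ Rel x₀ v ∧ Rel x₀ z) →
      (𝒟.c1 v' = p ∧ 𝒟.c1 z' = q ∧ Rel x₀ v' ∧ Rel x₀ z') →
      (𝒟.fix x₀).c2 v z = (𝒟.fix x₀).c2 v' z' → g v z = g v' z' := by
    intro v z v' z' h1 h2 h3
    rw [fc2, fc2] at h3
    exact hr2 _ _ _ _ (𝒟.c3_sub (by omega) h3).2.2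
  have k3 : ∀ T ∈ 𝒯, ∃ v z, (𝒟.c1 v = p ∧ 𝒟.c1 z = q ∧ Rel x₀ v ∧ Rel x₀ z) ∧ g v z = T := by
    intro T hT
    obtain ⟨v, hv, z, hz, h⟩ := G.occurs hN hT (fun z hz => hp z (hP z hz).1)
      (fun z hz => hq z (hP' z hz).1) hPc hPc'
    exact ⟨v, z, ⟨(hP v hv).1, (hP' z hz).1, (hP v hv).2, (hP' z hz).2⟩, h⟩
  obtain ⟨Bad, hBad, hgood⟩ := count_bad (𝒯 := 𝒯) hcol
    (fun v z => 𝒟.c1 v = p ∧ 𝒟.c1 z = q ∧ Rel x₀ v ∧ Rel x₀ z)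
    (fun v z => (𝒟.fix x₀).c2 v z) g k1 k2 k3
  refine ⟨Bad, hBad, ?_⟩
  intro T hT hTB x v z x' v' z' hx hx' hv hv' hz hz' rv rv' rz rz' gT gT'
  have tr : ∀ x v z, 𝒟.c1 x = ρ → 𝒟.c1 v = p → 𝒟.c1 z = q → Rel x v → Rel x z → g v z = T →
      ∃ v' z', (𝒟.c1 v' = p ∧ 𝒟.c1 z' = q ∧ Rel x₀ v' ∧ Rel x₀ z') ∧ g v' z' = T ∧
        𝒟.c3 x v z = 𝒟.c3 x₀ v' z' := by
    intro x v z hx hv hz rv rz gT
    obtain ⟨e1, he1⟩ := 𝒟.ext1 (by omega) (hx.trans hx₀.symm)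
    obtain ⟨e2, he2⟩ := 𝒟.ext2 (by omega) (he1 v)
    have h1 := 𝒟.c3_sub (by omega) (he2 z)
    refine ⟨e1 v, e2 z, ⟨?_, ?_, ?_, ?_⟩, ?_, he2 z⟩
    · rw [← (𝒟.c1_of_c2 (by omega) (he1 v)).2]; exact hv
    · rw [← (𝒟.c1_of_c2 (by omega) h1.2.1).2]; exact hz
    · exact hRel _ _ _ _ (he1 v) rv
    · exact hRel _ _ _ _ h1.2.1 rz
    · rw [← hr2 _ _ _ _ h1.2.2]; exact gT
  obtain ⟨a, b, h1, h2, h3⟩ := tr x v z hx hv hz rv rz gT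
  obtain ⟨a', b', h1', h2', h3'⟩ := tr x' v' z' hx' hv' hz' rv' rz' gT'
  have h4 := hgood T hT hTB a b a' b' h1 h1' h2 h2'
  rw [h3, h3', ← fc2, ← fc2]
  exact h4

/-- the choice of the colours `T_i` -/
theorem choose_T (G : Ground X g e R E 𝒯 L B D) {Q M : ℕ} (hM : 3 ≤ M) {j : ℕ}
    (𝒟 : Cfg V ι (M + (j + 1)))
    (hr2 : ∀ a b a' b', 𝒟.c2 a b = 𝒟.c2 a' b' → g a b = g a' b')
    (hRB : RB X Q M (j + 1) 𝒟) (hQ : 3 * Q < 4 * 𝒯.card) {p q ρ σ : ι} {N : ℕ}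
    (hN : B < N * N * D)
    (hp : ∀ a, 𝒟.c1 a = p → a ∈ X) (hq : ∀ a, 𝒟.c1 a = q → a ∈ X)
    (hρ : ∀ a, 𝒟.c1 a = ρ → a ∈ X) (hσ : ∀ a, 𝒟.c1 a = σ → a ∈ X)
    (hpx : ∀ v x v' x', 𝒟.c1 v = p → 𝒟.c1 v' = p → 𝒟.c1 x = ρ → 𝒟.c1 x' = ρ → g v x = R →
      g v' x' = R → 𝒟.c2 v x = 𝒟.c2 v' x')
    (hqx : ∀ v x v' x', 𝒟.c1 v = q → 𝒟.c1 v' = q → 𝒟.c1 x = ρ → 𝒟.c1 x' = ρ → g v x = R →
      g v' x' = R → 𝒟.c2 v x = 𝒟.c2 v' x')
    (hpy : ∀ v y v' y', 𝒟.c1 v = p → 𝒟.c1 v' = p → 𝒟.c1 y = σ → 𝒟.c1 y' = σ → g y v = R →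
      g y' v' = R → 𝒟.c2 y v = 𝒟.c2 y' v')
    (hqy : ∀ v y v' y', 𝒟.c1 v = q → 𝒟.c1 v' = q → 𝒟.c1 y = σ → 𝒟.c1 y' = σ → g y v = R →
      g y' v' = R → 𝒟.c2 y v = 𝒟.c2 y' v')
    {x₀ y₀ : V} (hx₀ : 𝒟.c1 x₀ = ρ) (hy₀ : 𝒟.c1 y₀ = σ) {P P' : Finset V}
    (hP : ∀ z ∈ P, 𝒟.c1 z = p ∧ g z x₀ = R ∧ g y₀ z = R)
    (hP' : ∀ z ∈ P', 𝒟.c1 z = q ∧ g z x₀ = R ∧ g y₀ z = R)
    (hPc : N ≤ P.card) (hPc' : N ≤ P'.card) :
    ∃ T ∈ 𝒯,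
      (∀ v z v' z', 𝒟.c1 v = p → 𝒟.c1 v' = p → 𝒟.c1 z = q → 𝒟.c1 z' = q → g v z = T →
        g v' z' = T → 𝒟.c2 v z = 𝒟.c2 v' z') ∧
      (∀ x v z x' v' z', 𝒟.c1 x = ρ → 𝒟.c1 x' = ρ → 𝒟.c1 v = p → 𝒟.c1 v' = p → 𝒟.c1 z = q →
        𝒟.c1 z' = q → g v x = R → g v' x' = R → g z x = R → g z' x' = R → g v z = T →
        g v' z' = T → 𝒟.c3 x v z = 𝒟.c3 x' v' z') ∧
      (∀ y v z y' v' z', 𝒟.c1 y = σ → 𝒟.c1 y' = σ → 𝒟.c1 v = p → 𝒟.c1 v' = p → 𝒟.c1 z = q →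
        𝒟.c1 z' = q → g y v = R → g y' v' = R → g y z = R → g y' z' = R → g v z = T →
        g v' z' = T → 𝒟.c3 y v z = 𝒟.c3 y' v' z') := by
  have hNpos : 0 < N := by
    rcases Nat.eq_zero_or_pos N with h0 | h0
    · subst h0; simp at hN
    · exact h0
  obtain ⟨v₁, hv₁⟩ := card_pos.1 (hNpos.trans_le hPc)
  obtain ⟨z₁, hz₁⟩ := card_pos.1 (hNpos.trans_le hPc')
  have hcol := hRB.rels hM (hp v₁ (hP v₁ hv₁).1) (hq z₁ (hP' z₁ hz₁).1)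
  obtain ⟨B0, hB0, hg0⟩ := count_bad (𝒯 := 𝒯) hcol (fun v z => 𝒟.c1 v = p ∧ 𝒟.c1 z = q)
    (fun v z => 𝒟.c2 v z) g
    (by
      rintro v z ⟨h1, h2⟩
      exact (𝒟.mem_rels _ _ _).2 ⟨v, z, h1.trans (hP v₁ hv₁).1.symm, h2.trans (hP' z₁ hz₁).1.symm,
        rfl⟩)
    (fun v z v' z' _ _ h => hr2 _ _ _ _ h)
    (by
      intro T hT
      obtain ⟨v, hv, z, hz, h⟩ := G.occurs hN hT (fun z hz => hp z (hP z hz).1)
        (fun z hz => hq z (hP' z hz).1) hPc hPc'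
      exact ⟨v, z, ⟨(hP v hv).1, (hP' z hz).1⟩, h⟩)
  obtain ⟨B1, hB1, hg1⟩ := count_pt (ρ := ρ) (N := N) G hM 𝒟 hr2 hRB hN hp hq
    (fun x z => g z x = R)
    (fun x z x' z' h h' => by rw [← hr2 _ _ _ _ (𝒟.c2_swap (by omega) h)]; exact h')
    (fun x v x' v' h1 h2 h3 h4 h5 h6 => 𝒟.c2_swap (by omega) (hpx v x v' x' h3 h4 h1 h2 h5 h6))
    (fun x v x' v' h1 h2 h3 h4 h5 h6 => 𝒟.c2_swap (by omega) (hqx v x v' x' h3 h4 h1 h2 h5 h6))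
    hx₀ (hρ _ hx₀) (fun z hz => ⟨(hP z hz).1, (hP z hz).2.1⟩)
    (fun z hz => ⟨(hP' z hz).1, (hP' z hz).2.1⟩) hPc hPc'
  obtain ⟨B2, hB2, hg2⟩ := count_pt (ρ := σ) (N := N) G hM 𝒟 hr2 hRB hN hp hq
    (fun y z => g y z = R)
    (fun x z x' z' h h' => by rw [← hr2 _ _ _ _ h]; exact h')
    (fun x v x' v' h1 h2 h3 h4 h5 h6 => hpy v x v' x' h3 h4 h1 h2 h5 h6)
    (fun x v x' v' h1 h2 h3 h4 h5 h6 => hqy v x v' x' h3 h4 h1 h2 h5 h6)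
    hy₀ (hσ _ hy₀) (fun z hz => ⟨(hP z hz).1, (hP z hz).2.2⟩)
    (fun z hz => ⟨(hP' z hz).1, (hP' z hz).2.2⟩) hPc hPc'
  have hex : ∃ T ∈ 𝒯, T ∉ B0 ∧ T ∉ B1 ∧ T ∉ B2 := by
    by_contra hcon
    push Not at hcon
    have hsub : 𝒯 ⊆ B0 ∪ (B1 ∪ B2) := by
      intro T hT
      by_contra h
      simp only [mem_union, not_or] at h
      exact h.2.2 (hcon T hT h.1 h.2.1)
    have h1 := card_le_card hsub
    have h2 := card_union_le B0 (B1 ∪ B2)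
    have h3 := card_union_le B1 B2
    omega
  obtain ⟨T, hT, h0, h1, h2⟩ := hex
  refine ⟨T, hT, ?_, ?_, ?_⟩
  · intro v z v' z' a b c d h h'
    exact hg0 T hT h0 v z v' z' ⟨a, c⟩ ⟨b, d⟩ h h'
  · exact hg1 T hT h1
  · exact hg2 T hT h2

/-- the recursion of the block lemma -/
theorem block_rec (G : Ground X g e R E 𝒯 L B D) {Q M J N₁ : ℕ} (hM : 3 ≤ M)
    (hQ : 3 * Q < 4 * 𝒯.card) (hN₁ : 3 * J * B < N₁ * N₁ * D) (hN₁' : B < N₁ * N₁ * D) :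
    ∀ (j : ℕ), j ≤ J → ∀ (𝒟 : Cfg V ι (M + j)),
    (∀ a b a' b', 𝒟.c2 a b = 𝒟.c2 a' b' → g a b = g a' b') →
    (∀ a b c a' b' c', 𝒟.c3 a b c = 𝒟.c3 a' b' c' → e a b c = e a' b' c') →
    RB X Q M j 𝒟 → ∀ (π : ℕ → ι) (ρ σ : ι) (𝒜 : Finset ι),
    (∀ i < j, ∀ a, 𝒟.c1 a = π i → a ∈ X) → (∀ a, 𝒟.c1 a = ρ → a ∈ X) →
    (∀ a, 𝒟.c1 a = σ → a ∈ X) →
    (∀ i < j, ∀ v x v' x', 𝒟.c1 v = π i → 𝒟.c1 v' = π i → 𝒟.c1 x = ρ → 𝒟.c1 x' = ρ →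
      g v x = R → g v' x' = R → 𝒟.c2 v x = 𝒟.c2 v' x') →
    (∀ i < j, ∀ v y v' y', 𝒟.c1 v = π i → 𝒟.c1 v' = π i → 𝒟.c1 y = σ → 𝒟.c1 y' = σ →
      g y v = R → g y' v' = R → 𝒟.c2 y v = 𝒟.c2 y' v') →
    (∀ t ∈ 𝒜, ∃ x y, 𝒟.c1 x = ρ ∧ 𝒟.c1 y = σ ∧ 𝒟.c2 x y = t ∧ ∀ i < j, ∀ ε,
      L ^ j * N₁ ≤ (univ.filter fun z => 𝒟.c1 z = π i ∧ e z x y = E ε).card) →
    3 ^ j * 𝒜.card ≤ Q := by
  intro j
  induction j with
  | zero =>
    intro _ 𝒟 hr2 hr3 hRB π ρ σ 𝒜 hπ hρ hσ hbx hby ha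
    rcases 𝒜.eq_empty_or_nonempty with rfl | ⟨t₀, ht₀⟩
    · simp
    obtain ⟨x₀, y₀, hx₀, hy₀, -, -⟩ := ha t₀ ht₀
    have h1 := hRB.rels hM (hρ _ hx₀) (hσ _ hy₀)
    rw [pow_zero, one_mul]
    refine le_trans (card_le_card fun t ht => ?_) h1
    obtain ⟨x, y, hx, hy, h, -⟩ := ha t ht
    exact (𝒟.mem_rels _ _ _).2 ⟨x, y, hx.trans hx₀.symm, hy.trans hy₀.symm, h⟩
  | succ j ih =>
    intro hj 𝒟 hr2 hr3 hRB π ρ σ 𝒜 hπ hρ hσ hbx hby ha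
    rcases 𝒜.eq_empty_or_nonempty with rfl | ⟨t₀, ht₀⟩
    · simp
    have hLpos := G.hL
    have hN₁pos : 0 < N₁ := by
      rcases Nat.eq_zero_or_pos N₁ with h0 | h0
      · subst h0; simp at hN₁'
      · exact h0
    set N := L ^ (j + 1) * N₁ with hNdef
    have hNN₁ : N₁ ≤ N := Nat.le_mul_of_pos_left _ (Nat.pow_pos hLpos)
    have hNN : N₁ * N₁ * D ≤ N * N * D :=
      Nat.mul_le_mul_right _ (Nat.mul_le_mul hNN₁ hNN₁)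
    have hN : B < N * N * D := lt_of_lt_of_le hN₁' hNN
    have hNpos : 0 < N := lt_of_lt_of_le hN₁pos hNN₁
    have hN'pos : 0 < L ^ j * N₁ := Nat.mul_pos (Nat.pow_pos hLpos) hN₁pos
    obtain ⟨x₀, y₀, hx₀, hy₀, hxy₀, hc₀⟩ := ha t₀ ht₀
    -- Step 1: the colours `T_i`
    have hTex : ∀ i, ∃ T, i < j → (T ∈ 𝒯 ∧
        (∀ v z v' z', 𝒟.c1 v = π 0 → 𝒟.c1 v' = π 0 → 𝒟.c1 z = π (i + 1) → 𝒟.c1 z' = π (i + 1) →
          g v z = T → g v' z' = T → 𝒟.c2 v z = 𝒟.c2 v' z') ∧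
        (∀ x v z x' v' z', 𝒟.c1 x = ρ → 𝒟.c1 x' = ρ → 𝒟.c1 v = π 0 → 𝒟.c1 v' = π 0 →
          𝒟.c1 z = π (i + 1) → 𝒟.c1 z' = π (i + 1) → g v x = R → g v' x' = R → g z x = R →
          g z' x' = R → g v z = T → g v' z' = T → 𝒟.c3 x v z = 𝒟.c3 x' v' z') ∧
        (∀ y v z y' v' z', 𝒟.c1 y = σ → 𝒟.c1 y' = σ → 𝒟.c1 v = π 0 → 𝒟.c1 v' = π 0 →
          𝒟.c1 z = π (i + 1) → 𝒟.c1 z' = π (i + 1) → g y v = R → g y' v' = R → g y z = R →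
          g y' z' = R → g v z = T → g v' z' = T → 𝒟.c3 y v z = 𝒟.c3 y' v' z')) := by
      intro i
      by_cases hi : i < j
      · obtain ⟨T, hT1, hT2, hT3, hT4⟩ := choose_T G hM 𝒟 hr2 hRB hQ hN (hπ 0 (by omega))
          (hπ (i + 1) (by omega)) hρ hσ (hbx 0 (by omega)) (hbx (i + 1) (by omega))
          (hby 0 (by omega)) (hby (i + 1) (by omega)) hx₀ hy₀
          (P := univ.filter fun z => 𝒟.c1 z = π 0 ∧ e z x₀ y₀ = E 0)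
          (P' := univ.filter fun z => 𝒟.c1 z = π (i + 1) ∧ e z x₀ y₀ = E 0)
          (fun z hz => ⟨(mem_filter.1 hz).2.1, G.hE _ _ _ _ (mem_filter.1 hz).2.2⟩)
          (fun z hz => ⟨(mem_filter.1 hz).2.1, G.hE _ _ _ _ (mem_filter.1 hz).2.2⟩)
          (hc₀ 0 (by omega) 0) (hc₀ (i + 1) (by omega) 0)
        exact ⟨T, fun _ => ⟨hT1, hT2, hT3, hT4⟩⟩
      · exact ⟨t₀, fun h => absurd h hi⟩
    choose T hT using hTex
    -- Step 2: good points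
    have star : ∀ t ∈ 𝒜, ∀ ε, ∃ v x y, 𝒟.c1 v = π 0 ∧ 𝒟.c1 x = ρ ∧ 𝒟.c1 y = σ ∧ 𝒟.c2 x y = t ∧
        e v x y = E ε ∧ ∀ i < j, ∀ ε', L ^ j * N₁ ≤
          (univ.filter fun z => 𝒟.c1 z = π (i + 1) ∧ g v z = T i ∧ e z x y = E ε').card := by
      intro t ht ε
      obtain ⟨x, y, hx, hy, hxy, hc⟩ := ha t ht
      set P : ℕ → Fin 3 → Finset V := fun i ε' =>
        univ.filter fun z => 𝒟.c1 z = π i ∧ e z x y = E ε' with hP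
      set Bd : ℕ → Fin 3 → Finset V := fun i ε' => X.filter fun v =>
        L * ((P (i + 1) ε').filter fun z => g v z = T i).card < (P (i + 1) ε').card with hBd
      have hPX : ∀ i < j + 1, ∀ ε', P i ε' ⊆ X := fun i hi ε' z hz =>
        hπ i hi z (mem_filter.1 hz).2.1
      have hPc : ∀ i < j + 1, ∀ ε', N ≤ (P i ε').card := fun i hi ε' => hc i hi ε'
      have hex : ∃ v ∈ P 0 ε, ∀ i < j, ∀ ε', v ∉ Bd i ε' := by
        by_contra hcon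
        push Not at hcon
        have hsub : P 0 ε ⊆ (range j ×ˢ (univ : Finset (Fin 3))).biUnion fun q => Bd q.1 q.2 := by
          intro v hv
          obtain ⟨i, hi, ε', h⟩ := hcon v hv
          exact mem_biUnion.2 ⟨(i, ε'), mem_product.2 ⟨mem_range.2 hi, mem_univ _⟩, h⟩
        have h1 := (card_le_card hsub).trans card_biUnion_le
        have h2 : ∀ q ∈ range j ×ˢ (univ : Finset (Fin 3)), (Bd q.1 q.2).card * (N * D) ≤ B := by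
          intro q hq
          have hq1 := mem_range.1 (mem_product.1 hq).1
          have h3 := G.mix (T q.1) (hT q.1 hq1).1 (P (q.1 + 1) q.2) (hPX (q.1 + 1) (by omega) q.2)
          refine le_trans ?_ h3
          rw [mul_assoc (Bd q.1 q.2).card]
          refine Nat.mul_le_mul (le_refl _) (Nat.mul_le_mul (hPc (q.1 + 1) (by omega) q.2) (le_refl D))
        have h4 := Finset.sum_le_sum h2
        rw [← Finset.sum_mul, Finset.sum_const, smul_eq_mul, card_product, card_range,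
          Finset.card_univ, Fintype.card_fin] at h4
        have h5 : N * (N * D) ≤ j * 3 * B := by
          refine le_trans (Nat.mul_le_mul_right _ ?_) h4
          exact (hPc 0 (by omega) ε).trans h1
        have h6 : j * 3 * B ≤ 3 * J * B := Nat.mul_le_mul_right _ (by omega)
        have h7 : N * (N * D) = N * N * D := by ring
        omega
      obtain ⟨v, hv, hvb⟩ := hex
      refine ⟨v, x, y, (mem_filter.1 hv).2.1, hx, hy, hxy, (mem_filter.1 hv).2.2, ?_⟩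
      intro i hi ε'
      have h1 := hvb i hi ε'
      rw [hBd, mem_filter, not_and, not_lt] at h1
      have h2 := h1 (hPX 0 (by omega) ε hv)
      have h3 := (hPc (i + 1) (by omega) ε').trans h2
      rw [hNdef, pow_succ, mul_comm (L ^ j) L, mul_assoc] at h3
      have h4 := Nat.le_of_mul_le_mul_left h3 hLpos
      refine h4.trans (le_of_eq ?_)
      congr 1
      ext z
      simp only [hP, mem_filter, mem_univ, true_and]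
      tauto
    -- Step 3: transport to one point `v₀`
    obtain ⟨v₀, -, -, hv₀, -⟩ := star t₀ ht₀ 0
    have hv₀X : v₀ ∈ X := hπ 0 (by omega) v₀ hv₀
    have tr : ∀ q : ι × Fin 3, ∃ xy : V × V, q.1 ∈ 𝒜 → (𝒟.c1 xy.1 = ρ ∧ 𝒟.c1 xy.2 = σ ∧
        𝒟.c2 xy.1 xy.2 = q.1 ∧ e v₀ xy.1 xy.2 = E q.2 ∧ ∀ i < j, ∀ ε', L ^ j * N₁ ≤
          (univ.filter fun z => 𝒟.c1 z = π (i + 1) ∧ g v₀ z = T i ∧
            e z xy.1 xy.2 = E ε').card) := by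
      rintro ⟨t, ε⟩
      by_cases ht : t ∈ 𝒜
      · obtain ⟨v, x, y, hv, hx, hy, hxy, hvxy, hcc⟩ := star t ht ε
        obtain ⟨e1, he1⟩ := 𝒟.ext1 (by omega) (hv.trans hv₀.symm)
        obtain ⟨e2, he2⟩ := 𝒟.ext2 (by omega) (he1 x)
        have h3 := he2 y
        have h4 := 𝒟.c3_sub (by omega) h3
        obtain ⟨e3, he3⟩ := 𝒟.ext3 (by omega) h3
        refine ⟨(e1 x, e2 y), fun _ => ⟨?_, ?_, ?_, ?_, ?_⟩⟩
        · rw [← (𝒟.c1_of_c2 (by omega) (he1 x)).2]; exact hx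
        · rw [← (𝒟.c1_of_c2 (by omega) h4.2.1).2]; exact hy
        · rw [← h4.2.2]; exact hxy
        · rw [← hr3 _ _ _ _ _ _ h3]; exact hvxy
        · intro i hi ε'
          refine (hcc i hi ε').trans (le_of_eq ?_)
          refine Finset.card_bij (fun z _ => e3 z) ?_ (fun a _ b _ h => e3.injective h) ?_
          · intro z hz
            have h5 := 𝒟.c4_sub (by omega) (he3 z)
            have h6 := 𝒟.c3_sub (by omega) h5.2.1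
            have h7 := 𝒟.c3_rot (by omega) (𝒟.c3_rot (by omega) h5.2.2.2)
            simp only [mem_filter, mem_univ, true_and] at hz ⊢
            rw [← (𝒟.c1_of_c2 (by omega) h6.2.1).2, ← hr2 _ _ _ _ h6.2.1, ← hr3 _ _ _ _ _ _ h7]
            exact hz
          · intro z' hz'
            refine ⟨e3.symm z', ?_, e3.apply_symm_apply z'⟩
            have h5 := 𝒟.c4_sub (by omega) (he3 (e3.symm z'))
            rw [e3.apply_symm_apply] at h5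
            have h6 := 𝒟.c3_sub (by omega) h5.2.1
            have h7 := 𝒟.c3_rot (by omega) (𝒟.c3_rot (by omega) h5.2.2.2)
            simp only [mem_filter, mem_univ, true_and] at hz' ⊢
            rw [(𝒟.c1_of_c2 (by omega) h6.2.1).2, hr2 _ _ _ _ h6.2.1, hr3 _ _ _ _ _ _ h7]
            exact hz'
      · exact ⟨(v₀, v₀), fun h => absurd h ht⟩
    choose xy hxy using tr
    -- Step 4: the new state
    have fc1 : ∀ a, (𝒟.fix v₀).c1 a = 𝒟.c2 v₀ a := fun a =>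
      Cfg.fix_c1 (m := M + j) 𝒟 (by omega) v₀ a
    have fc2 : ∀ a b, (𝒟.fix v₀).c2 a b = 𝒟.c3 v₀ a b := fun a b =>
      Cfg.fix_c2 (m := M + j) 𝒟 (by omega) v₀ a b
    have fc3 : ∀ a b c, (𝒟.fix v₀).c3 a b c = 𝒟.c4 v₀ a b c := fun a b c =>
      Cfg.fix_c3 (m := M + j) 𝒟 (by omega) v₀ a b c
    obtain ⟨hx₁, hy₁, -, hE₁, hcc₁⟩ := hxy (t₀, 0) ht₀
    set x₁ := (xy (t₀, 0)).1 with hx₁def
    set y₁ := (xy (t₀, 0)).2 with hy₁def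
    have hg₁ := G.hE _ _ _ _ hE₁
    have hzex : ∀ i, ∃ z, i < j → (𝒟.c1 z = π (i + 1) ∧ g v₀ z = T i) := by
      intro i
      by_cases hi : i < j
      · obtain ⟨z, hz⟩ := card_pos.1 (lt_of_lt_of_le hN'pos (hcc₁ i hi 0))
        exact ⟨z, fun _ => ⟨(mem_filter.1 hz).2.1, (mem_filter.1 hz).2.2.1⟩⟩
      · exact ⟨v₀, fun h => absurd h hi⟩
    choose zi hzi using hzex
    have mπ : ∀ i < j, ∀ z, (𝒟.fix v₀).c1 z = 𝒟.c2 v₀ (zi i) → 𝒟.c1 z = π (i + 1) ∧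
        g v₀ z = T i := by
      intro i hi z hz
      rw [fc1] at hz
      exact ⟨(𝒟.c1_of_c2 (by omega) hz).2.trans (hzi i hi).1,
        (hr2 _ _ _ _ hz).trans (hzi i hi).2⟩
    have mρ : ∀ x, (𝒟.fix v₀).c1 x = 𝒟.c2 v₀ x₁ → 𝒟.c1 x = ρ ∧ g v₀ x = R := by
      intro x hx
      rw [fc1] at hx
      exact ⟨(𝒟.c1_of_c2 (by omega) hx).2.trans hx₁, (hr2 _ _ _ _ hx).trans hg₁.1⟩
    have mσ : ∀ y, (𝒟.fix v₀).c1 y = 𝒟.c2 v₀ y₁ → 𝒟.c1 y = σ ∧ g y v₀ = R := by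
      intro y hy
      rw [fc1] at hy
      exact ⟨(𝒟.c1_of_c2 (by omega) hy).2.trans hy₁,
        (hr2 _ _ _ _ (𝒟.c2_swap (by omega) hy)).trans hg₁.2⟩
    set 𝒜' : Finset ι := (𝒜 ×ˢ (univ : Finset (Fin 3))).image fun q =>
      𝒟.c3 v₀ (xy q).1 (xy q).2 with h𝒜'
    have hcard : 𝒜'.card = 𝒜.card * 3 := by
      rw [h𝒜', card_image_of_injOn, card_product, Finset.card_univ, Fintype.card_fin]
      intro q hq q' hq' h
      have hq1 := (mem_product.1 (mem_coe.1 hq)).1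
      have hq1' := (mem_product.1 (mem_coe.1 hq')).1
      have h1 := 𝒟.c3_sub (by omega) h
      have h2 := hr3 _ _ _ _ _ _ h
      rw [(hxy q hq1).2.2.2.1, (hxy q' hq1').2.2.2.1] at h2
      have h3 := h1.2.2
      rw [(hxy q hq1).2.2.1, (hxy q' hq1').2.2.1] at h3
      exact Prod.ext h3 (G.hinj h2)
    have key := ih (by omega) (𝒟.fix v₀)
      (fun a b a' b' h => by
        rw [fc2, fc2] at h
        exact hr2 _ _ _ _ (𝒟.c3_sub (by omega) h).2.2)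
      (fun a b c a' b' c' h => by
        rw [fc3, fc3] at h
        exact hr3 _ _ _ _ _ _ (𝒟.c4_sub (by omega) h).2.2.2)
      (hRB.2 v₀ hv₀X) (fun i => 𝒟.c2 v₀ (zi i)) (𝒟.c2 v₀ x₁) (𝒟.c2 v₀ y₁) 𝒜'
      (fun i hi a h => hπ (i + 1) (by omega) a (mπ i hi a h).1)
      (fun a h => hρ a (mρ a h).1)
      (fun a h => hσ a (mσ a h).1)
      (by
        intro i hi z x z' x' h1 h2 h3 h4 h5 h6
        rw [fc2, fc2]
        refine 𝒟.c3_rot (by omega) ?_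
        exact (hT i hi).2.2.1 x v₀ z x' v₀ z' (mρ x h3).1 (mρ x' h4).1 hv₀ hv₀ (mπ i hi z h1).1
          (mπ i hi z' h2).1 (mρ x h3).2 (mρ x' h4).2 h5 h6 (mπ i hi z h1).2 (mπ i hi z' h2).2)
      (by
        intro i hi z y z' y' h1 h2 h3 h4 h5 h6
        rw [fc2, fc2]
        refine 𝒟.c3_swap (by omega) (𝒟.c3_rot (by omega) ?_)
        exact (hT i hi).2.2.2 y v₀ z y' v₀ z' (mσ y h3).1 (mσ y' h4).1 hv₀ hv₀ (mπ i hi z h1).1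
          (mπ i hi z' h2).1 (mσ y h3).2 (mσ y' h4).2 h5 h6 (mπ i hi z h1).2 (mπ i hi z' h2).2)
      (by
        intro t' ht'
        obtain ⟨q, hq, rfl⟩ := mem_image.1 ht'
        have hq1 := (mem_product.1 hq).1
        obtain ⟨k1, k2, k3, k4, k5⟩ := hxy q hq1
        have kg := G.hE _ _ _ _ k4
        refine ⟨(xy q).1, (xy q).2, ?_, ?_, ?_, ?_⟩
        · rw [fc1]
          exact hbx 0 (by omega) _ _ _ _ hv₀ hv₀ k1 hx₁ kg.1 hg₁.1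
        · rw [fc1]
          exact 𝒟.c2_swap (by omega) (hby 0 (by omega) _ _ _ _ hv₀ hv₀ k2 hy₁ kg.2 hg₁.2)
        · rw [fc2]
        · intro i hi ε'
          refine (k5 i hi ε').trans (card_le_card fun z hz => ?_)
          simp only [mem_filter, mem_univ, true_and] at hz ⊢
          refine ⟨?_, hz.2.2⟩
          rw [fc1]
          exact (hT i hi).2.1 v₀ z v₀ (zi i) hv₀ hv₀ hz.1 (hzi i hi).1 hz.2.1 (hzi i hi).2)
    rw [hcard] at key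
    calc 3 ^ (j + 1) * 𝒜.card = 3 ^ j * (𝒜.card * 3) := by ring
      _ ≤ Q := key

/-- **the block lemma**: statement -/
def BlockStmt : Prop := ∀ (V ι : Type) [Fintype V] [DecidableEq V] [DecidableEq ι] (M J : ℕ)
  (𝒞 : Cfg V ι (M + J)) (ρ : ι) (D L Q : ℕ), 5 ≤ M → 1 ≤ J → BigRank 𝒞 D →
  2 ≤ (𝒞.cls ρ).card →
  (∀ a z, 𝒞.c1 a = ρ → 𝒞.c1 z = ρ → a ≠ z →
    2 * (𝒞.cls ρ).card ≤ L * 𝒞.val a (𝒞.c2 a z)) →
  RB (𝒞.cls ρ) Q M J 𝒞 → 3 * Q + 4 < 4 * (𝒞.rels ρ ρ).card →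
  6 * J * L ^ (2 * J + 5) * Q ^ 2 ≤ D → 3 ^ J ≤ Q

/-- **TARGET**: `m ^ (4/3) ≤ C log n` -/
def Main34Stmt : Prop := ∃ C : ℕ, ∀ (V ι : Type) [Fintype V] [DecidableEq V] [DecidableEq ι]
  (m : ℕ) (𝒞 : Cfg V ι m), 2 ≤ Fintype.card V → (∀ a b : V, 𝒞.c1 a = 𝒞.c1 b) →
    m ^ 4 ≤ C * Nat.log 2 (Fintype.card V) ^ 3

end Vale.Agent.P319.SC.H323
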