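import Vale.Agent.P319.SC.H323.Tri
import Vale.Agent.P319.SC.H323.Block

/-! P319, block SC: the dichotomy. Either some colour `T` is split neither in the classes `R(x)` nor
in the classes `R*(x)`, or one of these classes has rank at least `(3 r - 1) / 2`. -/

namespace Vale.Agent.P319.SC.H323

open Finset Vale.Agent.P319.SC

set_option linter.all false

variable {V ι : Type} [Fintype V] [DecidableEq V] [DecidableEq ι] {m : ℕ}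

/-- colours occur between big sets -/
theorem occurs (𝒞 : Cfg V ι m) (hm : 3 ≤ m) {D : ℕ} (hD : BigRank 𝒞 D) {v₀ z₀ : V}
    (h₀ : 𝒞.c1 z₀ = 𝒞.c1 v₀) {P P' : Finset V} (hP : ∀ z ∈ P, 𝒞.c1 z = 𝒞.c1 v₀)
    (hP' : ∀ z ∈ P', 𝒞.c1 z = 𝒞.c1 v₀)
    (h : 4 * (𝒞.cls (𝒞.c1 v₀)).card ^ 3 < P.card * (𝒞.val v₀ (𝒞.c2 v₀ z₀) * P'.card * D)) :
    ∃ v ∈ P, ∃ z ∈ P', 𝒞.c2 v z = 𝒞.c2 v₀ z₀ := by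
  by_contra hcon
  push Not at hcon
  have hT : 𝒞.c2 v₀ z₀ ∈ 𝒞.rels (𝒞.c1 v₀) (𝒞.c1 v₀) :=
    (𝒞.mem_rels _ _ _).2 ⟨v₀, z₀, rfl, h₀, rfl⟩
  have h1 := bad_count 𝒞 hm hD rfl hT (Q := P') fun z hz => (𝒞.mem_cls _ _).2 (hP' z hz)
  have h0 : 0 < 𝒞.val v₀ (𝒞.c2 v₀ z₀) * P'.card := by
    rcases Nat.eq_zero_or_pos (𝒞.val v₀ (𝒞.c2 v₀ z₀) * P'.card) with h2 | h2
    · rw [h2] at h; simp at h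
    · exact h2
  have h2 : P ⊆ (𝒞.cls (𝒞.c1 v₀)).filter fun v => 2 * (𝒞.cls (𝒞.c1 v₀)).card *
      (P'.filter fun z => 𝒞.c2 v z = 𝒞.c2 v₀ z₀).card < 𝒞.val v₀ (𝒞.c2 v₀ z₀) * P'.card := by
    intro v hv
    refine mem_filter.2 ⟨(𝒞.mem_cls _ _).2 (hP v hv), ?_⟩
    have : (P'.filter fun z => 𝒞.c2 v z = 𝒞.c2 v₀ z₀) = ∅ :=
      Finset.filter_eq_empty_iff.2 fun z hz => hcon v hv z hz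
    rw [this, card_empty, mul_zero]
    exact h0
  have h3 := (Nat.mul_le_mul_right _ (card_le_card h2)).trans h1
  omega

/-- over one point `x₀`: few colours `T` are split in the class `S(x₀)` -/
theorem dich_aux (𝒞 : Cfg V ι (m + 1)) (hm : 3 ≤ m + 1) {x₀ z₀ : V} (h₀ : 𝒞.c1 z₀ = 𝒞.c1 x₀)
    (hocc : ∀ T ∈ 𝒞.rels (𝒞.c1 x₀) (𝒞.c1 x₀), ∃ v z, 𝒞.c2 x₀ v = 𝒞.c2 x₀ z₀ ∧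
      𝒞.c2 x₀ z = 𝒞.c2 x₀ z₀ ∧ 𝒞.c2 v z = T) :
    ∃ Bad : Finset ι, Bad.card + (𝒞.rels (𝒞.c1 x₀) (𝒞.c1 x₀)).card ≤
        ((𝒞.fix x₀).rels (𝒞.c2 x₀ z₀) (𝒞.c2 x₀ z₀)).card ∧
      ∀ T ∈ 𝒞.rels (𝒞.c1 x₀) (𝒞.c1 x₀), T ∉ Bad → ∀ x v v' y w w', 𝒞.c2 x v = 𝒞.c2 x₀ z₀ →
        𝒞.c2 x v' = 𝒞.c2 x₀ z₀ → 𝒞.c2 y w = 𝒞.c2 x₀ z₀ → 𝒞.c2 y w' = 𝒞.c2 x₀ z₀ →
        𝒞.c2 v v' = T → 𝒞.c2 w w' = T → 𝒞.c3 x v v' = 𝒞.c3 y w w' := by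
  obtain ⟨Bad, hBad, hgood⟩ := count_bad (𝒯 := 𝒞.rels (𝒞.c1 x₀) (𝒞.c1 x₀))
    (Col := (𝒞.fix x₀).rels (𝒞.c2 x₀ z₀) (𝒞.c2 x₀ z₀)) le_rfl
    (fun v z => 𝒞.c2 x₀ v = 𝒞.c2 x₀ z₀ ∧ 𝒞.c2 x₀ z = 𝒞.c2 x₀ z₀)
    (fun v z => (𝒞.fix x₀).c2 v z) (fun v z => 𝒞.c2 v z)
    (fun v z h => ((𝒞.fix x₀).mem_rels _ _ _).2 ⟨v, z, by rw [𝒞.fix_c1 (by omega)]; exact h.1,
      by rw [𝒞.fix_c1 (by omega)]; exact h.2, rfl⟩)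
    (fun v z v' z' h h' he => by
      simp only [𝒞.fix_c2 (show 2 ≤ m by omega)] at he
      exact (𝒞.c3_sub hm he).2.2)
    (fun T hT => by
      obtain ⟨v, z, h1, h2, h3⟩ := hocc T hT
      exact ⟨v, z, ⟨h1, h2⟩, h3⟩)
  refine ⟨Bad, hBad, ?_⟩
  intro T hT hTB x v v' y w w' a1 a2 a3 a4 a5 a6
  have tr : ∀ x v v', 𝒞.c2 x v = 𝒞.c2 x₀ z₀ → 𝒞.c2 x v' = 𝒞.c2 x₀ z₀ → 𝒞.c2 v v' = T →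
      ∃ u u', 𝒞.c2 x₀ u = 𝒞.c2 x₀ z₀ ∧ 𝒞.c2 x₀ u' = 𝒞.c2 x₀ z₀ ∧ 𝒞.c2 u u' = T ∧
        𝒞.c3 x v v' = 𝒞.c3 x₀ u u' := by
    intro x v v' b1 b2 b3
    obtain ⟨e1, he1⟩ := 𝒞.ext1 (by omega) (𝒞.c1_of_c2 (by omega) b1).1
    obtain ⟨e2, he2⟩ := 𝒞.ext2 hm (he1 v)
    have h1 := 𝒞.c3_sub hm (he2 v')
    exact ⟨e1 v, e2 v', by rw [← h1.1]; exact b1, by rw [← h1.2.1]; exact b2,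
      by rw [← h1.2.2]; exact b3, he2 v'⟩
  obtain ⟨u, u', c1, c2, c3, c4⟩ := tr x v v' a1 a2 a5
  obtain ⟨t, t', d1, d2, d3, d4⟩ := tr y w w' a3 a4 a6
  have := hgood T hT hTB u u' t t' ⟨c1, c2⟩ ⟨d1, d2⟩ c3 d3
  simp only [𝒞.fix_c2 (show 2 ≤ m by omega)] at this
  rw [c4, d4, this]

/-- **the dichotomy** -/
theorem dich (𝒞 : Cfg V ι (m + 1)) (hm : 3 ≤ m + 1) {x₀ z₀ : V} (h₀ : 𝒞.c1 z₀ = 𝒞.c1 x₀)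
    (hocc : ∀ T ∈ 𝒞.rels (𝒞.c1 x₀) (𝒞.c1 x₀), ∃ v z, 𝒞.c2 x₀ v = 𝒞.c2 x₀ z₀ ∧
      𝒞.c2 x₀ z = 𝒞.c2 x₀ z₀ ∧ 𝒞.c2 v z = T)
    (hocc' : ∀ T ∈ 𝒞.rels (𝒞.c1 x₀) (𝒞.c1 x₀), ∃ v z, 𝒞.c2 x₀ v = 𝒞.c2 z₀ x₀ ∧
      𝒞.c2 x₀ z = 𝒞.c2 z₀ x₀ ∧ 𝒞.c2 v z = T) :
    (∃ T ∈ 𝒞.rels (𝒞.c1 x₀) (𝒞.c1 x₀), T ≠ 𝒞.c2 x₀ x₀ ∧ UnspR 𝒞 (𝒞.c2 x₀ z₀) T ∧
      UnspL 𝒞 (𝒞.c2 x₀ z₀) T) ∨
    3 * (𝒞.rels (𝒞.c1 x₀) (𝒞.c1 x₀)).card ≤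
      ((𝒞.fix x₀).rels (𝒞.c2 x₀ z₀) (𝒞.c2 x₀ z₀)).card +
        ((𝒞.fix x₀).rels (𝒞.c2 z₀ x₀) (𝒞.c2 z₀ x₀)).card + 1 := by
  obtain ⟨e, he⟩ := 𝒞.ext1 (show 2 ≤ m + 1 by omega) h₀
  have hz : 𝒞.c2 z₀ x₀ = 𝒞.c2 x₀ (e x₀) := he x₀
  obtain ⟨B1, hB1, g1⟩ := dich_aux 𝒞 hm h₀ hocc
  obtain ⟨B2, hB2, g2⟩ := dich_aux 𝒞 hm (x₀ := x₀) (z₀ := e x₀)
    (by rw [← (𝒞.c1_of_c2 (by omega) (he x₀)).2]) (by rw [← hz]; exact hocc')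
  rw [← hz] at hB2 g2
  set r := (𝒞.rels (𝒞.c1 x₀) (𝒞.c1 x₀)).card with hr
  by_cases hA : ∃ T ∈ (𝒞.rels (𝒞.c1 x₀) (𝒞.c1 x₀)).erase (𝒞.c2 x₀ x₀), T ∉ B1 ∪ B2
  · left
    obtain ⟨T, hT, hTB⟩ := hA
    rw [mem_erase] at hT
    rw [mem_union, not_or] at hTB
    refine ⟨T, hT.2, hT.1, ?_, ?_⟩
    · intro v v' x w w' y a1 a2 a3 a4 a5 a6
      have := g2 T hT.2 hTB.2 x v v' y w w' (𝒞.c2_swap (by omega) a3) (𝒞.c2_swap (by omega) a4)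
        (𝒞.c2_swap (by omega) a5) (𝒞.c2_swap (by omega) a6) a1 a2
      exact 𝒞.c3_rot hm this
    · intro v v' x w w' y a1 a2 a3 a4 a5 a6
      exact 𝒞.c3_rot hm (g1 T hT.2 hTB.1 x v v' y w w' a3 a4 a5 a6 a1 a2)
  · right
    push Not at hA
    have h1 : ((𝒞.rels (𝒞.c1 x₀) (𝒞.c1 x₀)).erase (𝒞.c2 x₀ x₀)).card ≤ B1.card + B2.card :=
      (card_le_card hA).trans (card_union_le _ _)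
    rw [card_erase_of_mem (𝒞.diag_mem x₀)] at h1
    omega

end Vale.Agent.P319.SC.H323
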