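import Vale.Agent.P319.SC.H323.Tri

/-! P319, block SC: existence of the equivariant labels. -/

namespace Vale.Agent.P319.SC.H323

open Finset Vale.Agent.P319.SC

set_option linter.all false

variable {V ι : Type} [Fintype V] [DecidableEq V] [DecidableEq ι] {m : ℕ}

theorem ne_of_c2 (𝒞 : Cfg V ι m) (hm : 2 ≤ m) {R : ι} (hR : ∀ v, 𝒞.c2 v v ≠ R) {a b : V}
    (h : 𝒞.c2 a b = R) : a ≠ b := by
  rintro rfl
  exact hR _ h

/-- the position of the least of three numbers -/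
def lab3 (a b c : ℕ) : ZMod 3 := if a < b ∧ a < c then 0 else if b < a ∧ b < c then 2 else 1

theorem lab3_rot {a b c : ℕ} (h1 : a ≠ b) (h2 : b ≠ c) (h3 : c ≠ a) :
    lab3 b c a = lab3 a b c + 1 := by
  have z2 : (2 : ZMod 3) + 1 = 0 := by decide
  have z1 : (1 : ZMod 3) + 1 = 2 := by decide
  unfold lab3
  by_cases c1 : a < b
  · by_cases c2 : a < c
    · rw [if_neg (by omega), if_neg (by omega), if_pos ⟨c1, c2⟩, zero_add]
    · rw [if_neg (by omega), if_pos (by omega), if_neg (by omega), if_neg (by omega), z1]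
  · by_cases c2 : b < c
    · rw [if_pos (by omega), if_neg (by omega), if_pos (by omega), z2]
    · rw [if_neg (by omega), if_pos (by omega), if_neg (by omega), if_neg (by omega), z1]

theorem exists_lab (𝒞 : Cfg V ι m) (hm : 3 ≤ m) {R : ι} (hR : ∀ v, 𝒞.c2 v v ≠ R) :
    ∃ lab : ι → ZMod 3, IsLab 𝒞 R lab := by
  classical
  -- an injective numbering of the colours
  obtain ⟨h, hh⟩ : ∃ h : ι → ℕ, ∀ v x y v' x' y' : V, h (𝒞.c3 v x y) = h (𝒞.c3 v' x' y') →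
      𝒞.c3 v x y = 𝒞.c3 v' x' y' := by
    set S : Finset ι := (univ : Finset (V × V × V)).image fun t => 𝒞.c3 t.1 t.2.1 t.2.2 with hS
    have hmem : ∀ v x y : V, 𝒞.c3 v x y ∈ S := fun v x y =>
      mem_image.2 ⟨(v, x, y), mem_univ _, rfl⟩
    refine ⟨fun c => if hc : c ∈ S then (S.equivFin ⟨c, hc⟩ : ℕ) else 0, ?_⟩
    intro v x y v' x' y' he
    simp only [dif_pos (hmem _ _ _)] at he
    have := S.equivFin.injective (Fin.ext he)
    exact congrArg Subtype.val this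
  obtain ⟨lab, hlab⟩ : ∃ lab : ι → ZMod 3, ∀ v x y : V, lab (𝒞.c3 v x y) =
      lab3 (h (𝒞.c3 v x y)) (h (𝒞.c3 x y v)) (h (𝒞.c3 y v x)) := by
    refine ⟨fun c => if hc : ∃ t : V × V × V, 𝒞.c3 t.1 t.2.1 t.2.2 = c then
      lab3 (h (𝒞.c3 hc.choose.1 hc.choose.2.1 hc.choose.2.2))
        (h (𝒞.c3 hc.choose.2.1 hc.choose.2.2 hc.choose.1))
        (h (𝒞.c3 hc.choose.2.2 hc.choose.1 hc.choose.2.1)) else 0, ?_⟩
    intro v x y
    have hc : ∃ t : V × V × V, 𝒞.c3 t.1 t.2.1 t.2.2 = 𝒞.c3 v x y := ⟨(v, x, y), rfl⟩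
    have h1 := hc.choose_spec
    show (if hc : ∃ t : V × V × V, 𝒞.c3 t.1 t.2.1 t.2.2 = 𝒞.c3 v x y then
      lab3 (h (𝒞.c3 hc.choose.1 hc.choose.2.1 hc.choose.2.2))
        (h (𝒞.c3 hc.choose.2.1 hc.choose.2.2 hc.choose.1))
        (h (𝒞.c3 hc.choose.2.2 hc.choose.1 hc.choose.2.1)) else 0) = _
    rw [dif_pos hc, 𝒞.c3_rot hm h1, 𝒞.c3_rot hm (𝒞.c3_rot hm h1), h1]
  refine ⟨lab, ?_⟩
  intro v x y h1 h2 h3
  have n1 := ne_of_c2 𝒞 (by omega) hR h1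
  have n2 := ne_of_c2 𝒞 (by omega) hR h2
  have n3 := ne_of_c2 𝒞 (by omega) hR h3
  rw [hlab, hlab]
  exact lab3_rot (fun he => 𝒞.c3_rot_ne hm n1 n3.symm n2 (hh _ _ _ _ _ _ he).symm)
    (fun he => 𝒞.c3_rot_ne hm n2 n1.symm n3 (hh _ _ _ _ _ _ he).symm)
    (fun he => 𝒞.c3_rot_ne hm n3 n2.symm n1 (hh _ _ _ _ _ _ he).symm)

end Vale.Agent.P319.SC.H323
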