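import Vale.Agent.P319.SC.H323.Mix

/-! P319, block SC: the tripling lemma, statement (proof idea: helper235, note 4314). -/

namespace Vale.Agent.P319.SC.H323

open Finset Vale.Agent.P319.SC

variable {V ι : Type} [Fintype V] [DecidableEq V] [DecidableEq ι] {m : ℕ}

/-- `T` is not split in the classes `{v | c2 v x = R}` -/
def UnspR (𝒞 : Cfg V ι m) (R T : ι) : Prop := ∀ v v' x w w' y : V,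
  𝒞.c2 v v' = T → 𝒞.c2 w w' = T → 𝒞.c2 v x = R → 𝒞.c2 v' x = R → 𝒞.c2 w y = R →
  𝒞.c2 w' y = R → 𝒞.c3 v v' x = 𝒞.c3 w w' y

/-- `T` is not split in the classes `{v | c2 x v = R}` -/
def UnspL (𝒞 : Cfg V ι m) (R T : ι) : Prop := ∀ v v' x w w' y : V,
  𝒞.c2 v v' = T → 𝒞.c2 w w' = T → 𝒞.c2 x v = R → 𝒞.c2 x v' = R → 𝒞.c2 y w = R →
  𝒞.c2 y w' = R → 𝒞.c3 v v' x = 𝒞.c3 w w' y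

/-- `lab` is a label of the cyclic triples of type `(R, R, R)`, equivariant for the rotation -/
def IsLab (𝒞 : Cfg V ι m) (R : ι) (lab : ι → ZMod 3) : Prop := ∀ v x y : V,
  𝒞.c2 v x = R → 𝒞.c2 x y = R → 𝒞.c2 y v = R → lab (𝒞.c3 x y v) = lab (𝒞.c3 v x y) + 1

/-- **block TRI**: the tripling lemma. `𝒟` refines `𝒞`; everything is dense (`1 / L`) and `D` is
large. Then over a point `v₁` of the class, the pairs `(x, y)` with `𝒟.c2 x y` a given dense colour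
`τ = 𝒟.c2 x₂ y₂` below `R`, and with `x`, `y` in the classes of `x₁`, `y₁` over `v₁`, have all
three labels, and the pairs with label `ε` have the expected density up to a constant. -/
def TripleStmt : Prop := ∀ (V ι : Type) [Fintype V] [DecidableEq V] [DecidableEq ι] (m k : ℕ)
  (𝒞 : Cfg V ι (m + 2)) (𝒟 : Cfg V ι k) (ρ₀ R T : ι) (lab : ι → ZMod 3) (D L : ℕ),
  4 ≤ m → 3 ≤ k → BigRank 𝒞 D → (∀ v v', BigRank ((𝒞.fix v).fix v') D) → BigRank 𝒟 D →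
  (∀ a b a' b', 𝒟.c2 a b = 𝒟.c2 a' b' → 𝒞.c2 a b = 𝒞.c2 a' b') →
  (∀ a b c a' b' c', 𝒟.c3 a b c = 𝒟.c3 a' b' c' → 𝒞.c3 a b c = 𝒞.c3 a' b' c') →
  R ∈ 𝒞.rels ρ₀ ρ₀ → T ∈ 𝒞.rels ρ₀ ρ₀ → IsLab 𝒞 R lab → UnspR 𝒞 R T → UnspL 𝒞 R T →
  (∀ v, 𝒞.c1 v = ρ₀ → (𝒞.cls ρ₀).card ≤ L * 𝒞.val v R) →
  (∀ v, 𝒞.c1 v = ρ₀ → (𝒞.cls ρ₀).card ≤ L * 𝒞.val v T) →
  ∀ v₁ x₁ y₁ x₂ y₂ : V, 𝒞.c1 v₁ = ρ₀ → 𝒞.c2 v₁ x₁ = R → 𝒞.c2 y₁ v₁ = R → 𝒞.c2 x₂ y₂ = R →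
  𝒟.c1 x₂ = 𝒟.c1 x₁ → 𝒟.c1 y₂ = 𝒟.c1 y₁ →
  (𝒞.cls ρ₀).card ≤ L * (𝒟.cls (𝒟.c1 v₁)).card →
  (𝒞.cls ρ₀).card ≤ L * 𝒟.val v₁ (𝒟.c2 v₁ x₁) →
  (𝒞.cls ρ₀).card ≤ L * 𝒟.val v₁ (𝒟.c2 v₁ y₁) →
  (𝒞.cls ρ₀).card ≤ L * 𝒟.val x₂ (𝒟.c2 x₂ y₂) →
  2 ^ 24 * L ^ 32 < D →
  ∀ ε : ZMod 3,
    𝒟.val x₂ (𝒟.c2 x₂ y₂) * (𝒟.val v₁ (𝒟.c2 v₁ x₁) * 𝒟.val v₁ (𝒟.c2 v₁ y₁)) ≤
      8 * (𝒟.cls (𝒟.c1 y₁)).card *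
        (univ.filter fun q : V × V => 𝒟.c2 v₁ q.1 = 𝒟.c2 v₁ x₁ ∧ 𝒟.c2 v₁ q.2 = 𝒟.c2 v₁ y₁ ∧
          𝒟.c2 q.1 q.2 = 𝒟.c2 x₂ y₂ ∧ lab (𝒞.c3 v₁ q.1 q.2) = ε).card

end Vale.Agent.P319.SC.H323
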